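import Vale.Agent.P011.H380.UpBC
import Vale.Agent.P011.H83.Contr

/-!
# The hypotheses on `R` and `O`, bundled
-/

set_option linter.unusedSectionVars false

open MeasureTheory Filter Topology Set Module
open scoped ENNReal NNReal CompactlySupported

namespace Vale.Agent.P011.H380.UpBC

open Vale.Agent.P011.H544 Vale.Agent.P011.H83 Vale.Agent.P011.H380.Theta
  Vale.Agent.P011.H380.SymBC Vale.Agent.P011.H380.UnitsTop

/-- `O` is a discrete and cocompact subring of the topological `k`-algebra `R`. -/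
structure Good (k R : Type*) [Field k] [CommRing R] [TopologicalSpace R] [Algebra k R]
    (O : Subring k) : Prop where
  det : DetOne R
  units : GoodUnits R
  contr : Contr R
  disc : ∀ K : Set R, IsCompact K → {c : k | c ∈ O ∧ algebraMap k R c ∈ K}.Finite
  coc : ∃ K : Set R, IsCompact K ∧ ∀ r : R, ∃ c ∈ O, r - algebraMap k R c ∈ K
  frac : ∀ x : k, ∃ d ∈ O, d ≠ 0 ∧ d * x ∈ O

variable {k R A E ι : Type*} [Field k] [CommRing R] [TopologicalSpace R] [IsTopologicalRing R]
  [Algebra k R] [DivisionRing A] [StarRing A] [Algebra k A] [StarLin k A] [Ring E] [StarRing E]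
  [TopologicalSpace E] [IsTopologicalRing E] [Algebra R E] [Fintype ι] [DecidableEq ι]
  (B : BC k R A E ι) [Nontrivial R] [LocallyCompactSpace R] [T2Space R]
  [SecondCountableTopology R]

/-- **(UP).** -/
theorem Good.up {O : Subring k} (hG : Good k R O) {Lam : Subring A} [Countable Lam]
    (H : IsOrd B.a O Lam) {w0 : A} (hw : ∀ x, w0 * x = x * w0) (hne : w0 ≠ star w0)
    [MeasurableSpace (unitary E)] [BorelSpace (unitary E)]
    (μ : Measure (unitary E)) [μ.IsHaarMeasure]
    {P : Type*} (u : P → unitary A) (hu : Function.Injective u) :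
    ∃ C : ℝ≥0, ∀ φ : C_c(unitary E, ℝ), (∀ g, 0 ≤ φ g) → ∀ ε : ℝ, 0 < ε →
      ∀ᶠ x : ℝ in 𝓝[>] 1, ∀ s : Set P,
        Integrable φ (smeas (fun p ↦ jU B (u p)) (wt (fun p ↦ (H699.den Lam (u p : A) : ℝ)) x) s) ∧
        ∫ g, φ g ∂(smeas (fun p ↦ jU B (u p)) (wt (fun p ↦ (H699.den Lam (u p : A) : ℝ)) x) s) ≤
          C * ∫ g, φ g ∂μ + ε := by
  obtain ⟨r, hr⟩ := hG.contr
  exact up_bc B hG.det hG.units r hr hG.disc hG.coc hG.frac H hw hne μ u hu

/-- Local finiteness. -/
theorem Good.finite {O : Subring k} (hG : Good k R O) {Lam : Subring A} [Countable Lam]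
    (H : IsOrd B.a O Lam) {w0 : A} (hw : ∀ x, w0 * x = x * w0) (hne : w0 ≠ star w0)
    {P : Type*} (u : P → unitary A) (hu : Function.Injective u)
    {K : Set (unitary E)} (hK : IsCompact K) (Q : ℝ) :
    {p | jU B (u p) ∈ K ∧ (H699.den Lam (u p : A) : ℝ) ≤ Q}.Finite := by
  obtain ⟨r, hr⟩ := hG.contr
  exact finite_bc B hG.det hG.units r hr hG.disc hG.coc hG.frac H hw hne u hu hK Q

omit [Nontrivial R] [LocallyCompactSpace R] [T2Space R] [SecondCountableTopology R] in
/-- The denominators are at least one. -/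
theorem Good.one_le_den [Nontrivial R] {O : Subring k} (hG : Good k R O) {Lam : Subring A}
    [Countable Lam] (H : IsOrd B.a O Lam) (s : A) : (1 : ℝ) ≤ H699.den Lam s :=
  UpBC.one_le_den B hG.disc hG.coc hG.frac H s

end Vale.Agent.P011.H380.UpBC
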