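import Vale.Agent.P011.H380.UpFF
import Vale.Agent.P011.H871.ChoiceG

/-!
# Choice of `S`, function fields
-/

set_option linter.unusedSectionVars false

open Module

namespace Vale.Agent.P011.H380.ChoiceS

open Vale.Agent.P011.H544 Vale.Agent.P011.H380.UpBC Vale.Agent.P011.H738 Vale.Agent.P011.H271
  Vale.Agent.P011.H871.ChoiceG

variable {k : Type} [Field k] [GFF k] {A ι : Type*} [DivisionRing A] [StarRing A] [Algebra k A]
  [Fintype ι] (B : Basis ι k A)

theorem exists_mem_OSF (c : k) : ∃ S0 : Finset (Place k), ∀ S, S0 ⊆ S → c ∈ OSF S := by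
  classical
  by_cases hc : c = 0
  · exact ⟨∅, fun S _ ↦ hc ▸ (OSF S).zero_mem⟩
  · refine ⟨(place_finite hc).toFinset, fun S hS v hv ↦ ?_⟩
    by_contra h
    refine hv (hS ((place_finite hc).mem_toFinset.2 ?_))
    exact fun h1 ↦ h h1.le

/-- **Choice of `S`**, function fields. -/
theorem exists_SF (F : Finset A) (S1 : Finset (Place k)) :
    ∃ S0 : Finset (Place k), S1 ⊆ S0 ∧ ∀ S, S0 ⊆ S → ∀ x ∈ F, x ∈ ordO B (OSF S) := by
  classical
  obtain ⟨Z, hZ⟩ := exists_coords B F
  choose S hS using fun c : k ↦ exists_mem_OSF c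
  refine ⟨S1 ∪ Z.biUnion S, Finset.subset_union_left, fun S' hS' ↦ hZ _ fun z hz ↦ ?_⟩
  refine hS z S' (subset_trans ?_ hS')
  exact (Finset.subset_biUnion_of_mem S hz).trans Finset.subset_union_right

end Vale.Agent.P011.H380.ChoiceS
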