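import Vale.Agent.P011.H380.Model
import Vale.Agent.P011.H83.ContrNF
import Vale.Agent.P011.H544.CocD
import Vale.Agent.P011.H976.NFLev

/-!
# The asymptotic upper bound, number fields
-/

set_option linter.unusedSectionVars false

open MeasureTheory Filter Topology Set Module NumberField IsDedekindDomain
open scoped ENNReal NNReal CompactlySupported

namespace Vale.Agent.P011.H380.UpBC

open Vale.Agent.P011.H544 Vale.Agent.P011.H83 Vale.Agent.P011.H380.Theta
  Vale.Agent.P011.H380.SymBC Vale.Agent.P011.H380.UnitsTop Vale.Agent.P011 Vale.Agent.P011.Arith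

section nf

variable (k : Type) [Field k] [NumberField k] (S : Finset (HeightOneSpectrum (𝓞 k)))

instance instSecInf (v : InfinitePlace k) : SecondCountableTopology v.Completion := inferInstance

instance instSecFin (v : HeightOneSpectrum (𝓞 k)) :
    SecondCountableTopology (v.adicCompletion k) := by
  have : Countable k := inferInstance
  have : DenseRange (algebraMap k (v.adicCompletion k)) := fun x ↦ by
    rw [Metric.mem_closure_iff]
    intro ε hε
    obtain ⟨y, hy⟩ := Even.dense v x ε hε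
    exact ⟨_, ⟨y, rfl⟩, by rw [dist_eq_norm]; exact hy⟩
  have hsep : TopologicalSpace.SeparableSpace (v.adicCompletion k) :=
    ⟨Set.range (algebraMap k (v.adicCompletion k)), Set.countable_range _, this⟩
  exact UniformSpace.secondCountable_of_separable _

instance instSecKS : SecondCountableTopology (KS k S) := inferInstance

theorem goodUnits_KS : GoodUnits (KS k S) :=
  (GoodUnits.pi fun _ ↦ GoodUnits.field).prod (GoodUnits.pi fun _ ↦ GoodUnits.field)

theorem frac_OS (x : k) : ∃ d ∈ OS k S, d ≠ 0 ∧ d * x ∈ OS k S := by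
  obtain ⟨n, d, hd, rfl⟩ := IsFractionRing.div_surjective (A := 𝓞 k) x
  have hd0 : algebraMap (𝓞 k) k d ≠ 0 := by
    simpa using nonZeroDivisors.ne_zero hd
  refine ⟨algebraMap (𝓞 k) k d, fun v _ ↦ v.valuation_le_one d, hd0, ?_⟩
  have h : algebraMap (𝓞 k) k d * (algebraMap (𝓞 k) k n / algebraMap (𝓞 k) k d) =
      algebraMap (𝓞 k) k n := by field_simp
  rw [h]
  exact fun v _ ↦ v.valuation_le_one n

/-- **Number fields.** -/
theorem good_KS : Good k (KS k S) (OS k S) where
  det := KS_detOne k S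
  units := goodUnits_KS k S
  contr := contr_KS k S
  disc := OS_disc
  coc := OS_coc
  frac := frac_OS k S

end nf

section concrete

variable {k D : Type} [Field k] [NumberField k] [DivisionRing D] [StarRing D] [Algebra k D]
  [StarLin k D] {N : ℕ} (B : Basis (Fin N) k D) (S : Finset (HeightOneSpectrum (𝓞 k)))

/-- The unitary elements, as elements of `unitary D`. -/
def uD : H976.UD D →* unitary D where
  toFun g := ⟨((g : Dˣ) : D), Unitary.mem_iff.2 ⟨by
    have h : ((g : Dˣ) : D) * star ((g : Dˣ) : D) = 1 := g.2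
    have h1 : star ((g : Dˣ) : D) = (((g : Dˣ)⁻¹ : Dˣ) : D) := by
      rw [← Units.mul_right_inj (g : Dˣ), h, Units.mul_inv]
    rw [h1, Units.inv_mul], g.2⟩⟩
  map_one' := rfl
  map_mul' _ _ := rfl

theorem coe_uD (g : H976.UD D) : (uD g : D) = ((g : Dˣ) : D) := rfl

theorem uD_injective : Function.Injective (uD (D := D)) := by
  intro g h hgh
  exact Subtype.ext (Units.ext (congrArg Subtype.val hgh))

/-- The position of an element of `U(k)` in `U(k_S)`. -/
noncomputable def posS (g : H976.UD D) : unitary (BE B (KS k S)) := jU (bcT B (KS k S)) (uD g)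

/-- The `S`-denominator of an element of `U(k)`. -/
noncomputable def denS (g : H976.UD D) : ℝ := (H699.den (ordO B (OS k S)) ((g : Dˣ) : D) : ℝ)

theorem isOrd_S : IsOrd (bcT B (KS k S)).a (OS k S) (ordO B (OS k S)) := by
  obtain ⟨d, -, hd⟩ := exists_den B (OS k S) (frac_OS k S)
  exact (isOrd_ordO B hd).1

instance countable_ordO : Countable (ordO B (OS k S)) := by
  have := countable_D B
  infer_instance

theorem one_le_denS (g : H976.UD D) : 1 ≤ denS B S g :=
  Good.one_le_den (bcT B (KS k S)) (good_KS k S) (isOrd_S B S) _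

/-- **(UP) for number fields.** -/
theorem up_nf {w0 : D} (hw : ∀ x, w0 * x = x * w0) (hne : w0 ≠ star w0)
    [MeasurableSpace (unitary (BE B (KS k S)))] [BorelSpace (unitary (BE B (KS k S)))]
    (μ : Measure (unitary (BE B (KS k S)))) [μ.IsHaarMeasure] :
    ∃ C : ℝ≥0, ∀ φ : C_c(unitary (BE B (KS k S)), ℝ), (∀ g, 0 ≤ φ g) → ∀ ε : ℝ, 0 < ε →
      ∀ᶠ x : ℝ in 𝓝[>] 1, ∀ s : Set (H976.UD D),
        Integrable φ (smeas (posS B S) (wt (denS B S) x) s) ∧
        ∫ g, φ g ∂(smeas (posS B S) (wt (denS B S) x) s) ≤ C * ∫ g, φ g ∂μ + ε :=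
  Good.up (bcT B (KS k S)) (good_KS k S) (isOrd_S B S) hw hne μ uD uD_injective

/-- Local finiteness. -/
theorem finite_nf {w0 : D} (hw : ∀ x, w0 * x = x * w0) (hne : w0 ≠ star w0)
    {K : Set (unitary (BE B (KS k S)))} (hK : IsCompact K) (Q : ℝ) :
    {g : H976.UD D | posS B S g ∈ K ∧ denS B S g ≤ Q}.Finite :=
  Good.finite (bcT B (KS k S)) (good_KS k S) (isOrd_S B S) hw hne uD uD_injective hK Q

/-- The denominator is invariant under left and right multiplication by `U(O_S)`. -/
theorem denS_mul {γ γ' : H976.UD D} (hγ : ((γ : Dˣ) : D) ∈ ordO B (OS k S))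
    (hγ' : ((γ' : Dˣ) : D) ∈ ordO B (OS k S)) (g : H976.UD D) :
    denS B S (γ * g * γ') = denS B S g := by
  have h := den_mul (isOrd_S B S).star_mem (γ := uD γ) (γ' := uD γ') hγ hγ' (uD g)
  exact congrArg (Nat.cast (R := ℝ)) h

/-- Equivariance of the colour measures under `g ↦ γ g γ'`. -/
theorem map_smeas_nf {γ γ' : H976.UD D} (hγ : ((γ : Dˣ) : D) ∈ ordO B (OS k S))
    (hγ' : ((γ' : Dˣ) : D) ∈ ordO B (OS k S))
    [MeasurableSpace (unitary (BE B (KS k S)))] [BorelSpace (unitary (BE B (KS k S)))]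
    {s t : Set (H976.UD D)} (hst : ∀ g, g ∈ s ↔ γ * g * γ' ∈ t) (x : ℝ) :
    (smeas (posS B S) (wt (denS B S) x) s).map (fun g ↦ posS B S γ * g * posS B S γ') =
      smeas (posS B S) (wt (denS B S) x) t := by
  have := (bcT B (KS k S)).continuousStar
  exact map_smeas_mul (bcT B (KS k S)) (isOrd_S B S).star_mem (γ := uD γ) (γ' := uD γ') hγ hγ' uD
    ((Equiv.mulLeft γ).trans (Equiv.mulRight γ')) (fun p ↦ by
      change uD (γ * p * γ') = _
      rw [map_mul, map_mul]) hst x

end concrete

end Vale.Agent.P011.H380.UpBC
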