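import Mathlib

/-!
# Units of topological rings which are finite and free over a commutative ring

`GoodUnits R`: the set of units of `R` is open and the inverse is continuous on it.  This holds for
topological fields, finite products, and finite free algebras over such rings.
-/

set_option linter.unusedSectionVars false

open Matrix Module Filter Topology Set

namespace Vale.Agent.P011.H380.UnitsTop

/-- The units are open and the inverse is continuous. -/
structure GoodUnits (R : Type*) [Ring R] [TopologicalSpace R] : Prop where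
  isOpen : IsOpen {x : R | IsUnit x}
  inv : ContinuousOn Ring.inverse {x : R | IsUnit x}

theorem GoodUnits.field {F : Type*} [Field F] [TopologicalSpace F] [T1Space F]
    [ContinuousInv₀ F] : GoodUnits F where
  isOpen := by
    have h : {x : F | IsUnit x} = {0}ᶜ := by
      ext x
      rw [mem_compl_iff, mem_singleton_iff]
      exact isUnit_iff_ne_zero
    rw [h]
    exact isOpen_compl_singleton
  inv := by
    rw [Ring.inverse_eq_inv']
    intro x hx
    exact (continuousAt_inv₀ hx.ne_zero).continuousWithinAt

theorem inverse_eq {R : Type*} [Ring R] {x y : R} (h : x * y = 1) (h' : y * x = 1) :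
    Ring.inverse x = y := by
  have hx : IsUnit x := ⟨⟨x, y, h, h'⟩, rfl⟩
  have h1 := Ring.inverse_mul_cancel x hx
  calc Ring.inverse x = Ring.inverse x * (x * y) := by rw [h, mul_one]
    _ = y := by rw [← mul_assoc, h1, one_mul]

theorem GoodUnits.pi {W : Type*} [Finite W] {F : W → Type*} [∀ w, CommRing (F w)]
    [∀ w, TopologicalSpace (F w)] (h : ∀ w, GoodUnits (F w)) : GoodUnits (∀ w, F w) where
  isOpen := by
    have h1 : {x : ∀ w, F w | IsUnit x} = ⋂ w, {x | IsUnit (x w)} := by
      ext x
      rw [mem_iInter]
      exact Pi.isUnit_iff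
    rw [h1]
    exact isOpen_iInter_of_finite fun w ↦ (h w).isOpen.preimage (continuous_apply w)
  inv := by
    have h1 : ∀ x ∈ {x : ∀ w, F w | IsUnit x}, Ring.inverse x = fun w ↦ Ring.inverse (x w) := by
      intro x hx
      have hx' : ∀ w, IsUnit (x w) := fun w ↦ Pi.isUnit_iff.1 hx w
      refine inverse_eq ?_ ?_
      · funext w
        exact Ring.mul_inverse_cancel _ (hx' w)
      · funext w
        exact Ring.inverse_mul_cancel _ (hx' w)
    refine ContinuousOn.congr ?_ h1
    refine continuousOn_pi.2 fun w ↦ ?_
    exact (h w).inv.comp (continuous_apply w).continuousOn fun x hx ↦ Pi.isUnit_iff.1 hx w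

theorem GoodUnits.prod {R S : Type*} [CommRing R] [CommRing S] [TopologicalSpace R]
    [TopologicalSpace S] (hR : GoodUnits R) (hS : GoodUnits S) : GoodUnits (R × S) where
  isOpen := by
    have h1 : {x : R × S | IsUnit x} = {x | IsUnit x.1} ∩ {x | IsUnit x.2} := by
      ext x
      exact Prod.isUnit_iff
    rw [h1]
    exact (hR.isOpen.preimage continuous_fst).inter (hS.isOpen.preimage continuous_snd)
  inv := by
    have h1 : ∀ x ∈ {x : R × S | IsUnit x}, Ring.inverse x = (Ring.inverse x.1, Ring.inverse x.2) := by
      intro x hx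
      have hx' := Prod.isUnit_iff.1 hx
      refine inverse_eq ?_ ?_
      · exact Prod.ext (Ring.mul_inverse_cancel _ hx'.1) (Ring.mul_inverse_cancel _ hx'.2)
      · exact Prod.ext (Ring.inverse_mul_cancel _ hx'.1) (Ring.inverse_mul_cancel _ hx'.2)
    refine ContinuousOn.congr ?_ h1
    refine ContinuousOn.prodMk ?_ ?_
    · exact hR.inv.comp continuous_fst.continuousOn fun x hx ↦ (Prod.isUnit_iff.1 hx).1
    · exact hS.inv.comp continuous_snd.continuousOn fun x hx ↦ (Prod.isUnit_iff.1 hx).2

section algebra

variable {R E ι : Type*} [CommRing R] [TopologicalSpace R] [IsTopologicalRing R] [Ring E]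
  [TopologicalSpace E] [Algebra R E] [Fintype ι] [DecidableEq ι] (φ : E ≃L[R] (ι → R))

/-- The basis. -/
noncomputable def bas : Basis ι R E := Basis.ofEquivFun φ.toLinearEquiv

theorem bas_repr (x : E) : ⇑((bas φ).repr x) = φ x := by
  funext i
  rfl

/-- The matrix of the left multiplication. -/
noncomputable def lm : E →ₐ[R] Matrix ι ι R := Algebra.leftMulMatrix (bas φ)

theorem lm_apply (x : E) (i j : ι) : lm φ x i j = φ (x * bas φ j) i := by
  rw [lm, Algebra.leftMulMatrix_eq_repr_mul, bas_repr]

theorem lm_mulVec (x y : E) : lm φ x *ᵥ φ y = φ (x * y) := by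
  rw [← bas_repr, ← bas_repr, lm, Algebra.leftMulMatrix_mulVec_repr]

theorem continuous_lm [ContinuousMul E] : Continuous (lm φ) := by
  refine continuous_matrix fun i j ↦ ?_
  simp only [lm_apply]
  have := φ.continuous
  fun_prop

theorem isUnit_iff (x : E) : IsUnit x ↔ IsUnit (lm φ x).det := by
  constructor
  · intro h
    rw [← Matrix.isUnit_iff_isUnit_det]
    exact h.map (lm φ)
  · intro h
    set y : E := φ.symm ((lm φ x)⁻¹ *ᵥ φ 1) with hy
    have h1 : x * y = 1 := by
      apply φ.injective
      rw [← lm_mulVec, hy, ContinuousLinearEquiv.apply_symm_apply, Matrix.mulVec_mulVec,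
        Matrix.mul_nonsing_inv _ h, Matrix.one_mulVec]
    have h2 : y * x = 1 := by
      apply Algebra.leftMulMatrix_injective (bas φ)
      rw [map_mul, map_one]
      have h3 : lm φ x * lm φ y = 1 := by rw [← map_mul, h1, map_one]
      exact mul_eq_one_comm.1 h3
    exact ⟨⟨x, y, h1, h2⟩, rfl⟩

theorem inverse_eq_symm {x : E} (hx : IsUnit x) :
    Ring.inverse x = φ.symm ((Ring.inverse (lm φ x).det • (lm φ x).adjugate) *ᵥ φ 1) := by
  rw [← Matrix.inv_def]
  apply φ.injective
  have hd := (isUnit_iff φ x).1 hx
  rw [ContinuousLinearEquiv.apply_symm_apply]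
  have h1 : lm φ x *ᵥ φ (Ring.inverse x) = φ 1 := by
    rw [lm_mulVec, Ring.mul_inverse_cancel _ hx]
  rw [← h1, Matrix.mulVec_mulVec, Matrix.nonsing_inv_mul _ hd, Matrix.one_mulVec]

include φ in
theorem GoodUnits.algebra [ContinuousMul E] (hR : GoodUnits R) : GoodUnits E where
  isOpen := by
    have h1 : {x : E | IsUnit x} = (fun x ↦ (lm φ x).det) ⁻¹' {r : R | IsUnit r} := by
      ext x
      exact isUnit_iff φ x
    rw [h1]
    exact hR.isOpen.preimage (continuous_lm φ).matrix_det
  inv := by
    refine ContinuousOn.congr ?_ fun x hx ↦ inverse_eq_symm φ hx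
    have h1 : ContinuousOn (fun x ↦ Ring.inverse (lm φ x).det) {x : E | IsUnit x} :=
      hR.inv.comp (continuous_lm φ).matrix_det.continuousOn fun x hx ↦ (isUnit_iff φ x).1 hx
    have h2 : ContinuousOn (fun x ↦ (Ring.inverse (lm φ x).det • (lm φ x).adjugate) *ᵥ φ 1)
        {x : E | IsUnit x} := by
      refine continuousOn_pi.2 fun i ↦ ?_
      simp only [Matrix.mulVec, dotProduct, Matrix.smul_apply, smul_eq_mul]
      refine continuousOn_finsetSum _ fun j _ ↦ ?_
      refine ContinuousOn.mul (h1.mul ?_) continuousOn_const
      exact ((continuous_lm φ).matrix_adjugate.matrix_elem i j).continuousOn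
    exact φ.symm.continuous.comp_continuousOn h2

end algebra

/-- The unitary group is closed. -/
theorem isClosed_unitary (E : Type*) [Ring E] [StarRing E] [TopologicalSpace E] [T1Space E]
    [ContinuousMul E] [ContinuousStar E] : IsClosed (unitary E : Set E) := by
  have h : (unitary E : Set E) = {x | star x * x = 1} ∩ {x | x * star x = 1} := by
    ext x
    exact Unitary.mem_iff
  rw [h]
  have h1 : Continuous fun x : E ↦ star x * x := continuous_star.mul continuous_id
  have h2 : Continuous fun x : E ↦ x * star x := continuous_id.mul continuous_star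
  exact (isClosed_singleton.preimage h1).inter (isClosed_singleton.preimage h2)

theorem locallyCompact_unitary (E : Type*) [Ring E] [StarRing E] [TopologicalSpace E] [T1Space E]
    [ContinuousMul E] [ContinuousStar E] [LocallyCompactSpace E] :
    LocallyCompactSpace (unitary E) :=
  (isClosed_unitary E).isClosedEmbedding_subtypeVal.locallyCompactSpace

end Vale.Agent.P011.H380.UnitsTop
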