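import Mathlib

/-!
# Counting separated points in a locally compact group; Haar measure of small cells
-/

set_option linter.unusedSectionVars false
set_option linter.style.haveILetI false

open MeasureTheory Filter Topology Set
open scoped CompactlySupported ENNReal Pointwise

namespace Vale.Agent.P011.H380.Theta

variable {G : Type*} [TopologicalSpace G] [Group G] [IsTopologicalGroup G] [T2Space G]
  [LocallyCompactSpace G] [MeasurableSpace G] [BorelSpace G]

/-- Uniform continuity on the right, near a compact set. -/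
theorem eventually_abs_sub_le (κ : C_c(G, ℝ)) {K : Set G} (hK : IsCompact K) {ε : ℝ}
    (hε : 0 < ε) : ∀ᶠ b in 𝓝 (1 : G), ∀ w ∈ K, |κ (w * b) - κ w| < ε := by
  refine hK.eventually_forall_of_forall_eventually (x₀ := (1 : G))
    (P := fun b w ↦ |κ (w * b) - κ w| < ε) fun w _ ↦ ?_
  have hc : Continuous fun z : G × G ↦ |κ (z.2 * z.1) - κ z.2| := by fun_prop
  have h0 : |κ (w * 1) - κ w| < ε := by simpa using hε
  exact (hc.continuousAt (x := ((1 : G), w))).eventually_lt continuousAt_const h0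

/-- If the points of denominator `≤ Q` have disjoint cells `pos p * B Q`, of measure `≥ c / Q`,
then they are at most `c⁻¹ Q` times the volume. -/
theorem count_of_sep {P : Type*} {μ : Measure G} [μ.IsMulLeftInvariant]
    [IsFiniteMeasureOnCompacts μ] {pos : P → G} {den : P → ℝ} (B : ℝ → Set G)
    (hBm : ∀ Q, MeasurableSet (B Q)) (hBlim : ∀ V ∈ 𝓝 (1 : G), ∀ᶠ Q in atTop, B Q ⊆ V)
    {c : ℝ} (hc : 0 < c) (hBμ : ∀ᶠ Q in atTop, c / Q ≤ μ.real (B Q))
    (hsep : ∀ᶠ Q in atTop, ∀ p p', den p ≤ Q → den p' ≤ Q → p ≠ p' →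
      ∀ b ∈ B Q, ∀ b' ∈ B Q, pos p * b ≠ pos p' * b') :
    ∀ κ : C_c(G, ℝ), (∀ x, 0 ≤ κ x) → ∀ ε > 0, ∀ᶠ Q : ℝ in atTop,
      ∀ s : Finset P, (∀ p ∈ s, den p ≤ Q) → ∑ p ∈ s, κ (pos p) ≤ (c⁻¹ * ∫ x, κ x ∂μ + ε) * Q := by
  classical
  intro κ hκ ε hε
  set K := tsupport κ with hKdef
  have hK : IsCompact K := κ.hasCompactSupport
  obtain ⟨V0, hV0c, hV0n⟩ := exists_compact_mem_nhds (1 : G)
  have hK' : IsCompact (K * V0) := hK.mul hV0c
  have hK'm : MeasurableSet (K * V0) := hK'.measurableSet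
  set m : ℝ := μ.real (K * V0) with hm
  have hm0 : 0 ≤ m := measureReal_nonneg
  set ε' : ℝ := ε * c / (m + 1) with hε'
  have hε'0 : 0 < ε' := by positivity
  filter_upwards [hBlim _ hV0n, hBlim _ (eventually_abs_sub_le κ hK hε'0), hBμ, hsep,
    eventually_gt_atTop 0] with Q hQ1 hQ2 hQ3 hQ4 hQ0 s hs
  -- restrict to the points in the support
  set T : Finset P := s.filter fun p ↦ pos p ∈ K with hT
  have hsT : ∑ p ∈ s, κ (pos p) = ∑ p ∈ T, κ (pos p) := by
    rw [← Finset.sum_filter_add_sum_filter_not s (fun p ↦ pos p ∈ K)]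
    rw [Finset.sum_eq_zero (s := s.filter fun p ↦ pos p ∉ K), add_zero]
    intro p hp
    exact image_eq_zero_of_notMem_tsupport (Finset.mem_filter.1 hp).2
  set U : P → Set G := fun p ↦ (fun y ↦ (pos p)⁻¹ * y) ⁻¹' B Q with hU
  have hUm : ∀ p, MeasurableSet (U p) := fun p ↦ (measurable_const_mul _) (hBm Q)
  have hUμ : ∀ p, μ (U p) = μ (B Q) := fun p ↦ measure_preimage_mul μ _ _
  have hUK : ∀ p ∈ T, U p ⊆ K * V0 := by
    intro p hp y hy
    refine Set.mem_mul.2 ⟨pos p, (Finset.mem_filter.1 hp).2, (pos p)⁻¹ * y, hQ1 hy, by simp⟩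
  have hfin : μ (K * V0) ≠ ⊤ := hK'.measure_lt_top.ne
  have hdisj : (T : Set P).PairwiseDisjoint U := by
    intro p hp p' hp' hne
    rw [Function.onFun, Set.disjoint_left]
    intro y hy hy'
    have hp1 := hs p (Finset.mem_filter.1 hp).1
    have hp2 := hs p' (Finset.mem_filter.1 hp').1
    exact hQ4 p p' hp1 hp2 hne _ hy _ hy' (by simp)
  -- the comparison function
  set g : G → ℝ := fun y ↦ κ y + ε' * (K * V0).indicator 1 y with hg
  have hgi : Integrable g μ := by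
    refine κ.integrable.add (Integrable.const_mul ?_ _)
    exact (integrable_indicator_iff hK'm).2 (integrableOn_const hfin)
  have hg0 : ∀ y, 0 ≤ g y := fun y ↦
    add_nonneg (hκ y) (mul_nonneg hε'0.le (indicator_nonneg (fun _ _ ↦ zero_le_one) y))
  have hgI : ∫ y, g y ∂μ = ∫ y, κ y ∂μ + ε' * m := by
    rw [integral_add κ.integrable, integral_const_mul, integral_indicator_one hK'm]
    exact Integrable.const_mul ((integrable_indicator_iff hK'm).2 (integrableOn_const hfin)) _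
  have hone : ∀ p ∈ T, κ (pos p) * μ.real (B Q) ≤ ∫ y in U p, g y ∂μ := by
    intro p hp
    have hUfin : μ (U p) ≠ ⊤ := ne_top_of_le_ne_top hfin (measure_mono (hUK p hp))
    have h1 : ∫ y in U p, κ (pos p) ∂μ = κ (pos p) * μ.real (B Q) := by
      rw [setIntegral_const, measureReal_def, hUμ, smul_eq_mul, mul_comm, measureReal_def]
    rw [← h1]
    refine setIntegral_mono_on (integrableOn_const hUfin) hgi.integrableOn (hUm p) ?_
    intro y hy
    have h2 : |κ (pos p * ((pos p)⁻¹ * y)) - κ (pos p)| < ε' :=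
      hQ2 hy _ (Finset.mem_filter.1 hp).2
    rw [mul_inv_cancel_left] at h2
    have h3 := (abs_lt.1 h2).1
    simp only [hg, indicator_of_mem (hUK p hp hy), Pi.one_apply, mul_one]
    linarith
  have hsum : (∑ p ∈ T, κ (pos p)) * μ.real (B Q) ≤ ∫ y, κ y ∂μ + ε' * m := by
    rw [Finset.sum_mul, ← hgI]
    calc ∑ p ∈ T, κ (pos p) * μ.real (B Q) ≤ ∑ p ∈ T, ∫ y in U p, g y ∂μ :=
          Finset.sum_le_sum hone
      _ = ∫ y in ⋃ p ∈ T, U p, g y ∂μ :=
          (integral_biUnion_finset T (fun p _ ↦ hUm p) hdisj fun p _ ↦ hgi.integrableOn).symm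
      _ ≤ ∫ y, g y ∂μ := setIntegral_le_integral hgi (Eventually.of_forall hg0)
  have hS0 : 0 ≤ ∑ p ∈ T, κ (pos p) := Finset.sum_nonneg fun p _ ↦ hκ _
  rw [hsT]
  have h4 : (∑ p ∈ T, κ (pos p)) * (c / Q) ≤ ∫ y, κ y ∂μ + ε' * m :=
    (mul_le_mul_of_nonneg_left hQ3 hS0).trans hsum
  have h5 : ε' * m ≤ ε * c := by
    rw [hε', div_mul_eq_mul_div, div_le_iff₀ (by positivity)]
    have : 0 ≤ ε * c := by positivity
    nlinarith
  have h6 : (∑ p ∈ T, κ (pos p)) * (c / Q) * (Q / c) = ∑ p ∈ T, κ (pos p) := by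
    field_simp
  rw [← h6]
  calc (∑ p ∈ T, κ (pos p)) * (c / Q) * (Q / c) ≤ (∫ y, κ y ∂μ + ε * c) * (Q / c) := by
        refine mul_le_mul_of_nonneg_right (h4.trans (by linarith)) (by positivity)
    _ = (c⁻¹ * ∫ x, κ x ∂μ + ε) * Q := by field_simp

/-- Lower bound for the measure of a small cell by covering. -/
theorem le_measure_cell {L : Type*} [AddGroup L] [MeasurableSpace L] [MeasurableAdd L]
    {μ : Measure G} [μ.IsMulLeftInvariant] {lam : Measure L} [lam.IsAddLeftInvariant]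
    {C1 B : Set G} {φ : G → L} {D E : Set L} (hEm : MeasurableSet E) (hDfin : lam D ≠ ⊤)
    (hE0 : lam E ≠ 0) (hD : ∀ g ∈ C1, ∀ e ∈ E, φ g + e ∈ D)
    (hB : ∀ g ∈ C1, ∀ g' ∈ C1, (∃ e ∈ E, ∃ e' ∈ E, φ g + e = φ g' + e') → g⁻¹ * g' ∈ B) :
    μ C1 * lam E ≤ lam D * μ B := by
  classical
  rcases C1.eq_empty_or_nonempty with hC | ⟨g0, hg0⟩
  · simp [hC]
  -- packings
  let Pack : Finset G → Prop := fun T ↦ (∀ g ∈ T, g ∈ C1) ∧
    (T : Set G).PairwiseDisjoint fun g ↦ (fun y ↦ -φ g + y) ⁻¹' E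
  have hpm : ∀ T, Pack T → (T.card : ℝ≥0∞) * lam E ≤ lam D := by
    intro T hT
    have h1 : ∑ g ∈ T, lam ((fun y ↦ -φ g + y) ⁻¹' E) = T.card * lam E := by
      rw [Finset.sum_congr rfl fun g _ ↦ measure_preimage_add lam (-φ g) E, Finset.sum_const,
        nsmul_eq_mul]
    rw [← h1, ← measure_biUnion_finset hT.2 fun g _ ↦ (measurable_const_add _) hEm]
    refine measure_mono (iUnion₂_subset fun g hg y hy ↦ ?_)
    have := hD g (hT.1 g hg) _ hy
    simpa using this
  have hEfin : lam E ≠ ⊤ := by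
    have h2 := hpm {g0} ⟨by simpa using hg0, by simp⟩
    refine ne_top_of_le_ne_top hDfin ?_
    simpa using h2
  -- a packing of maximal cardinality
  obtain ⟨N, hN⟩ : ∃ N : ℕ, ∀ T, Pack T → T.card ≤ N := by
    obtain ⟨N, hN⟩ := ENNReal.exists_nat_gt (ENNReal.div_ne_top hDfin hE0)
    refine ⟨N, fun T hT ↦ ?_⟩
    have h3 : (T.card : ℝ≥0∞) ≤ lam D / lam E := by
      rw [ENNReal.le_div_iff_mul_le (Or.inl hE0) (Or.inl hEfin)]
      exact hpm T hT
    exact_mod_cast (h3.trans hN.le)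
  obtain ⟨T, hT, hTmax⟩ : ∃ T, Pack T ∧ ∀ T', Pack T' → T'.card ≤ T.card := by
    have hne : ∃ n, ∃ T, Pack T ∧ T.card = n := ⟨0, ∅, ⟨by simp, by simp⟩, rfl⟩
    have hbd : ∀ n, (∃ T, Pack T ∧ T.card = n) → n ≤ N := by
      rintro n ⟨T, hT, rfl⟩
      exact hN T hT
    obtain ⟨T, hT, hTc⟩ := Nat.findGreatest_spec (P := fun n ↦ ∃ T, Pack T ∧ T.card = n)
      (Nat.zero_le N) ⟨∅, ⟨by simp, by simp⟩, rfl⟩
    refine ⟨T, hT, fun T' hT' ↦ ?_⟩
    rw [hTc]
    exact Nat.le_findGreatest (hN T' hT') ⟨T', hT', rfl⟩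
  -- the translates of `B` by `T` cover `C1`
  have hcov : C1 ⊆ ⋃ g ∈ T, (fun y ↦ g⁻¹ * y) ⁻¹' B := by
    intro g hg
    by_contra hcon
    simp only [mem_iUnion, mem_preimage, not_exists] at hcon
    have hgT : ∀ t ∈ T, Disjoint ((fun y ↦ -φ t + y) ⁻¹' E) ((fun y ↦ -φ g + y) ⁻¹' E) := by
      intro t ht
      rw [Set.disjoint_left]
      intro y hy hy'
      exact hcon t ht (hB t (hT.1 t ht) g hg ⟨_, hy, _, hy', by simp⟩)
    have hgT' : g ∉ T := by
      intro h
      have h5 := hgT g h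
      rw [disjoint_self, Set.bot_eq_empty] at h5
      have h6 : lam ((fun y ↦ -φ g + y) ⁻¹' E) = lam E := measure_preimage_add lam _ _
      rw [h5, measure_empty] at h6
      exact hE0 h6.symm
    have hP : Pack (insert g T) := by
      refine ⟨fun t ht ↦ ?_, ?_⟩
      · rcases Finset.mem_insert.1 ht with rfl | h
        · exact hg
        · exact hT.1 t h
      · rw [Finset.coe_insert]
        refine hT.2.insert fun t ht _ ↦ (hgT t ht).symm
    have h7 := hTmax _ hP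
    rw [Finset.card_insert_of_notMem hgT'] at h7
    omega
  calc μ C1 * lam E ≤ (∑ g ∈ T, μ ((fun y ↦ g⁻¹ * y) ⁻¹' B)) * lam E := by
        gcongr
        exact (measure_mono hcov).trans (measure_biUnion_finset_le _ _)
    _ = (T.card * lam E) * μ B := by
        rw [Finset.sum_congr rfl fun g _ ↦ measure_preimage_mul μ g⁻¹ B, Finset.sum_const,
          nsmul_eq_mul]
        ring
    _ ≤ lam D * μ B := by
        gcongr
        exact hpm T hT

end Vale.Agent.P011.H380.Theta
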