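import Vale.Agent.P011.H380.Count
import Vale.Agent.P011.H380.Sep

/-!
# The asymptotic upper bound in terms of measures

`smeas pos W s` is the sum over the points `p ∈ s` of the Dirac measures at `pos p` with weights
`W p`.  If the points of denominator at most `Q` have disjoint cells `pos p * B Q` of measure at
least `c / Q`, then the measures with the weights `(x - 1) den p ^ (-x)`, `x → 1+`, are
asymptotically bounded by a multiple of the Haar measure (`up_of_cells`).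
-/

set_option linter.unusedSectionVars false
set_option linter.style.haveILetI false

open MeasureTheory Filter Topology Set
open scoped CompactlySupported ENNReal NNReal Pointwise

namespace Vale.Agent.P011.H380.Theta

section smeas

variable {P G : Type*} [MeasurableSpace G]

/-- The sum of the Dirac measures at the points of `s`, with weights `W`. -/
noncomputable def smeas (pos : P → G) (W : P → ℝ) (s : Set P) : Measure G :=
  Measure.sum fun p : s ↦ ENNReal.ofReal (W p) • Measure.dirac (pos p)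

theorem smeas_apply (pos : P → G) (W : P → ℝ) (s : Set P) {B : Set G} (hB : MeasurableSet B) :
    smeas pos W s B = ∑' p : s, ENNReal.ofReal (W p) * B.indicator 1 (pos p) := by
  rw [smeas, Measure.sum_apply _ hB]
  refine tsum_congr fun p ↦ ?_
  rw [Measure.smul_apply, Measure.dirac_apply' _ hB, smul_eq_mul]

theorem lintegral_smeas (pos : P → G) (W : P → ℝ) (s : Set P) {f : G → ℝ≥0∞}
    (hf : Measurable f) :
    ∫⁻ g, f g ∂(smeas pos W s) = ∑' p : s, ENNReal.ofReal (W p) * f (pos p) := by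
  rw [smeas, lintegral_sum_measure]
  refine tsum_congr fun p ↦ ?_
  rw [lintegral_smul_measure, lintegral_dirac' _ hf, smul_eq_mul]

/-- Transport of the measures. -/
theorem map_smeas {P' G' : Type*} [MeasurableSpace G'] {pos : P → G} {pos' : P' → G'}
    {W : P → ℝ} {W' : P' → ℝ} {s : Set P} {t : Set P'} {T : G → G'} (hT : Measurable T)
    (e : P ≃ P') (hst : ∀ p, p ∈ s ↔ e p ∈ t) (hW : ∀ p ∈ s, W' (e p) = W p)
    (hpos : ∀ p ∈ s, pos' (e p) = T (pos p)) :
    (smeas pos W s).map T = smeas pos' W' t := by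
  let e' : s ≃ t := e.subtypeEquiv hst
  rw [smeas, Measure.map_sum hT.aemeasurable, smeas]
  have h1 : ∀ p : s, (ENNReal.ofReal (W p) • Measure.dirac (pos p)).map T =
      ENNReal.ofReal (W' (e' p)) • Measure.dirac (pos' (e' p)) := by
    intro p
    have h2 : ((e' p : t) : P') = e p := rfl
    rw [Measure.map_smul, Measure.map_dirac' hT, h2, hW p p.2, hpos p p.2]
  simp_rw [h1]
  ext B hB
  rw [Measure.sum_apply _ hB, Measure.sum_apply _ hB]
  exact e'.tsum_eq (fun q : t ↦ (ENNReal.ofReal (W' q) • Measure.dirac (pos' q)) B)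

/-- Bounds from finite sums. -/
theorem integral_smeas_le [TopologicalSpace G] [BorelSpace G] {pos : P → G} {W : P → ℝ}
    (hW : ∀ p, 0 ≤ W p) (s : Set P) {κ : G → ℝ} (hκc : Continuous κ) (hκ : ∀ g, 0 ≤ κ g) {M : ℝ}
    (hM : ∀ s : Finset P, ∑ p ∈ s, W p * κ (pos p) ≤ M) :
    Integrable κ (smeas pos W s) ∧ ∫ g, κ g ∂(smeas pos W s) ≤ M := by
  have hM0 : 0 ≤ M := by simpa using hM ∅
  have h1 : ∫⁻ g, ENNReal.ofReal (κ g) ∂(smeas pos W s) ≤ ENNReal.ofReal M := by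
    have h0 : Measurable fun g ↦ ENNReal.ofReal (κ g) := hκc.measurable.ennreal_ofReal
    rw [lintegral_smeas _ _ _ h0, ENNReal.tsum_eq_iSup_sum]
    refine iSup_le fun F ↦ ?_
    have h2 : ∑ p ∈ F, ENNReal.ofReal (W p) * ENNReal.ofReal (κ (pos p)) =
        ENNReal.ofReal (∑ p ∈ F.map (Function.Embedding.subtype _), W p * κ (pos p)) := by
      rw [Finset.sum_map, ENNReal.ofReal_sum_of_nonneg fun p _ ↦ mul_nonneg (hW _) (hκ _)]
      refine Finset.sum_congr rfl fun p _ ↦ ?_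
      rw [ENNReal.ofReal_mul (hW _)]
      rfl
    rw [h2]
    exact ENNReal.ofReal_le_ofReal (hM _)
  have h3 : Integrable κ (smeas pos W s) := by
    refine ⟨hκc.aestronglyMeasurable, ?_⟩
    rw [hasFiniteIntegral_iff_ofReal (Eventually.of_forall hκ)]
    exact h1.trans_lt ENNReal.ofReal_lt_top
  refine ⟨h3, ?_⟩
  rw [integral_eq_lintegral_of_nonneg_ae (Eventually.of_forall hκ) hκc.aestronglyMeasurable]
  exact ENNReal.toReal_le_of_le_ofReal hM0 h1

/-- The integral as a sum. -/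
theorem integral_smeas {pos : P → G} {W : P → ℝ} (hW : ∀ p, 0 ≤ W p) (s : Set P) {κ : G → ℝ}
    (hκ : StronglyMeasurable κ) (h : Integrable κ (smeas pos W s)) :
    HasSum (fun p : s ↦ W p * κ (pos p)) (∫ g, κ g ∂(smeas pos W s)) := by
  have h1 := hasSum_integral_measure h
  have h2 : (fun p : s ↦ W p * κ (pos p)) =
      fun p : s ↦ ∫ g, κ g ∂(ENNReal.ofReal (W p) • Measure.dirac (pos p)) := by
    funext p
    rw [integral_smul_measure, integral_dirac' _ _ hκ, ENNReal.toReal_ofReal (hW p), smul_eq_mul]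
  rw [h2]
  exact h1

end smeas

section up

variable {G : Type*} [TopologicalSpace G] [Group G] [IsTopologicalGroup G] [T2Space G]
  [LocallyCompactSpace G] [MeasurableSpace G] [BorelSpace G]

/-- Finitely many points of bounded denominator in a compact set. -/
theorem finite_of_sep {P : Type*} {μ : Measure G} [μ.IsMulLeftInvariant]
    [IsFiniteMeasureOnCompacts μ] {pos : P → G} {den : P → ℝ} (B : ℝ → Set G)
    (hBm : ∀ Q, MeasurableSet (B Q)) (hBlim : ∀ V ∈ 𝓝 (1 : G), ∀ᶠ Q in atTop, B Q ⊆ V)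
    {c : ℝ} (hc : 0 < c) (hBμ : ∀ᶠ Q in atTop, c / Q ≤ μ.real (B Q))
    (hsep : ∀ᶠ Q in atTop, ∀ p p', den p ≤ Q → den p' ≤ Q → p ≠ p' →
      ∀ b ∈ B Q, ∀ b' ∈ B Q, pos p * b ≠ pos p' * b')
    {K : Set G} (hK : IsCompact K) (Q : ℝ) : {p | pos p ∈ K ∧ den p ≤ Q}.Finite := by
  classical
  obtain ⟨V0, hV0c, hV0n⟩ := exists_compact_mem_nhds (1 : G)
  obtain ⟨Q', hQ1, hQ2, hQ3, hQ4⟩ := (((hBlim _ hV0n).and hBμ).and
    (hsep.and ((eventually_ge_atTop Q).and (eventually_gt_atTop 0)))).exists.imp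
    (fun Q' h ↦ (⟨h.1.1, h.1.2, h.2.1, h.2.2⟩ : _ ∧ _ ∧ _ ∧ _))
  have hK' : IsCompact (K * V0) := hK.mul hV0c
  have hfin : μ (K * V0) ≠ ⊤ := hK'.measure_lt_top.ne
  have hcQ : 0 < c / Q' := div_pos hc hQ4.2
  set U : P → Set G := fun p ↦ (fun y ↦ (pos p)⁻¹ * y) ⁻¹' B Q' with hU
  have hUm : ∀ p, MeasurableSet (U p) := fun p ↦ (measurable_const_mul _) (hBm Q')
  have hUμ : ∀ p, μ (U p) = μ (B Q') := fun p ↦ measure_preimage_mul μ _ _
  -- bound for the cardinality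
  have hbd : ∀ T : Finset P, (∀ p ∈ T, pos p ∈ K ∧ den p ≤ Q) →
      T.card * (c / Q') ≤ μ.real (K * V0) := by
    intro T hT
    have hdisj : (T : Set P).PairwiseDisjoint U := by
      intro p hp p' hp' hne
      rw [Function.onFun, Set.disjoint_left]
      intro y hy hy'
      exact hQ3 p p' ((hT p hp).2.trans hQ4.1) ((hT p' hp').2.trans hQ4.1) hne _ hy _ hy'
        (by simp)
    have h1 : ∑ p ∈ T, μ (U p) ≤ μ (K * V0) := by
      rw [← measure_biUnion_finset hdisj fun p _ ↦ hUm p]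
      refine measure_mono (iUnion₂_subset fun p hp y hy ↦ ?_)
      exact Set.mem_mul.2 ⟨pos p, (hT p hp).1, (pos p)⁻¹ * y, hQ1 hy, by simp⟩
    rw [Finset.sum_congr rfl fun p _ ↦ hUμ p, Finset.sum_const, nsmul_eq_mul] at h1
    have h2 := ENNReal.toReal_mono hfin h1
    rw [ENNReal.toReal_mul, ENNReal.toReal_natCast] at h2
    exact (mul_le_mul_of_nonneg_left hQ2 (Nat.cast_nonneg _)).trans h2
  by_contra hinf
  obtain ⟨N, hN⟩ := exists_nat_gt (μ.real (K * V0) / (c / Q'))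
  obtain ⟨T, hT, hTc⟩ := (show {p | pos p ∈ K ∧ den p ≤ Q}.Infinite from hinf).exists_subset_card_eq N
  have h1 := hbd T fun p hp ↦ hT hp
  rw [hTc] at h1
  rw [div_lt_iff₀ hcQ] at hN
  linarith

/-- The bound of the finite sums, from counting. -/
theorem eventually_sum_wt_le {P : Type*} {μ : Measure G} [IsFiniteMeasureOnCompacts μ]
    {pos : P → G} {den : P → ℝ} {C : ℝ} (hC : 0 ≤ C) (hden : ∀ p, 1 ≤ den p)
    (hfin : ∀ (K : Set G) (Q : ℝ), IsCompact K → {p | pos p ∈ K ∧ den p ≤ Q}.Finite)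
    (κ : C_c(G, ℝ)) (hκ : ∀ x, 0 ≤ κ x)
    (hcnt : ∀ ε > 0, ∀ᶠ Q : ℝ in atTop,
      ∀ s : Finset P, (∀ p ∈ s, den p ≤ Q) → ∑ p ∈ s, κ (pos p) ≤ (C * ∫ x, κ x ∂μ + ε) * Q)
    {ε : ℝ} (hε : 0 < ε) :
    ∀ᶠ x : ℝ in 𝓝[>] 1, ∀ s : Finset P, ∑ p ∈ s, wt den x p * κ (pos p) ≤
      4 * C * ∫ x, κ x ∂μ + ε := by
  classical
  -- the main bound
  obtain ⟨N0, hN0, hmain⟩ : ∃ N0 : ℝ, 0 ≤ N0 ∧
      ∀ x : ℝ, 1 < x → x ≤ 2 → ∀ s : Finset P, ∑ p ∈ s, κ (pos p) * den p ^ (-x) ≤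
        2 * N0 + 4 * (C * ∫ y, κ y ∂μ + ε / 8) / (x - 1) := by
    obtain ⟨Q0, hQ0⟩ := eventually_atTop.1 (hcnt (ε / 8) (by positivity))
    set T : Finset P := (hfin (tsupport κ) Q0 κ.hasCompactSupport).toFinset with hT
    have hI : 0 ≤ ∫ x, κ x ∂μ := integral_nonneg hκ
    refine ⟨∑ p ∈ T, κ (pos p), Finset.sum_nonneg fun p _ ↦ hκ _, fun x hx1 hx2 s ↦ ?_⟩
    refine sum_rpow_le (fun p ↦ hκ _) hden (Finset.sum_nonneg fun p _ ↦ hκ _) (by positivity)
      ?_ hx1 hx2 s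
    intro s Q hQ hs
    rcases le_total Q0 Q with h | h
    · have h1 := hQ0 Q h s hs
      have h2 : 0 ≤ ∑ p ∈ T, κ (pos p) := Finset.sum_nonneg fun p _ ↦ hκ _
      linarith
    · have h1 : ∑ p ∈ s, κ (pos p) ≤ ∑ p ∈ T, κ (pos p) := by
        rw [← Finset.sum_filter_add_sum_filter_not s (fun p ↦ p ∈ T)]
        have h3 : ∑ p ∈ s with p ∉ T, κ (pos p) = 0 := by
          refine Finset.sum_eq_zero fun p hp ↦ ?_
          obtain ⟨hps, hpT⟩ := Finset.mem_filter.1 hp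
          have : pos p ∉ tsupport κ := by
            intro h4
            exact hpT ((hfin _ _ κ.hasCompactSupport).mem_toFinset.2
              ⟨h4, (hs p hps).trans h⟩)
          exact image_eq_zero_of_notMem_tsupport this
        rw [h3, add_zero]
        exact Finset.sum_le_sum_of_subset_of_nonneg
          (fun p hp ↦ (Finset.mem_filter.1 hp).2) fun p _ _ ↦ hκ _
      have h2 : 0 ≤ (C * ∫ x, κ x ∂μ + ε / 8) * Q := by positivity
      linarith
  have h1 : ∀ᶠ x : ℝ in 𝓝[>] 1, x ∈ Ioo 1 (1 + min 1 (ε / (4 * (N0 + 1)))) :=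
    Ioo_mem_nhdsGT (by
      have : 0 < min 1 (ε / (4 * (N0 + 1))) := lt_min one_pos (by positivity)
      linarith)
  filter_upwards [h1] with x hx s
  have hx1 : 1 < x := hx.1
  have hx2 : x ≤ 2 := by
    have := hx.2.le
    have h2 := min_le_left 1 (ε / (4 * (N0 + 1)))
    linarith
  have hx3 : x - 1 ≤ ε / (4 * (N0 + 1)) := by
    have := hx.2.le
    have h2 := min_le_right 1 (ε / (4 * (N0 + 1)))
    linarith
  have hI : 0 ≤ ∫ x, κ x ∂μ := integral_nonneg hκ
  calc ∑ p ∈ s, wt den x p * κ (pos p)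
      = (x - 1) * ∑ p ∈ s, κ (pos p) * den p ^ (-x) := by
        rw [Finset.mul_sum]
        refine Finset.sum_congr rfl fun p _ ↦ ?_
        rw [wt, max_eq_left (by linarith : (0 : ℝ) ≤ x - 1)]
        ring
    _ ≤ (x - 1) * (2 * N0 + 4 * (C * ∫ y, κ y ∂μ + ε / 8) / (x - 1)) :=
        mul_le_mul_of_nonneg_left (hmain x hx1 hx2 s) (by linarith)
    _ = 2 * N0 * (x - 1) + 4 * (C * ∫ y, κ y ∂μ + ε / 8) := by
        have : x - 1 ≠ 0 := by linarith
        field_simp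
    _ ≤ 2 * N0 * (ε / (4 * (N0 + 1))) + 4 * (C * ∫ y, κ y ∂μ + ε / 8) := by gcongr
    _ ≤ ε / 2 + 4 * (C * ∫ y, κ y ∂μ + ε / 8) := by
        gcongr
        rw [mul_div_assoc', div_le_div_iff₀ (by positivity) (by norm_num)]
        nlinarith
    _ = 4 * C * ∫ y, κ y ∂μ + ε := by ring

theorem wt_nonneg {P : Type*} {den : P → ℝ} (hden : ∀ p, 1 ≤ den p) (x : ℝ) (p : P) :
    0 ≤ wt den x p := by
  have := hden p
  exact mul_nonneg (le_max_right _ _) (by positivity)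

/-- **The asymptotic upper bound for the measures with weights `(x - 1) den ^ (-x)`**, uniformly
over all sets of points. -/
theorem up_of_cells {P : Type*} {μ : Measure G} [μ.IsMulLeftInvariant]
    [IsFiniteMeasureOnCompacts μ] {pos : P → G} {den : P → ℝ} (hden : ∀ p, 1 ≤ den p)
    (B : ℝ → Set G)
    (hBm : ∀ Q, MeasurableSet (B Q)) (hBlim : ∀ V ∈ 𝓝 (1 : G), ∀ᶠ Q in atTop, B Q ⊆ V)
    {c : ℝ} (hc : 0 < c) (hBμ : ∀ᶠ Q in atTop, c / Q ≤ μ.real (B Q))
    (hsep : ∀ᶠ Q in atTop, ∀ p p', den p ≤ Q → den p' ≤ Q → p ≠ p' →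
      ∀ b ∈ B Q, ∀ b' ∈ B Q, pos p * b ≠ pos p' * b')
    (φ : C_c(G, ℝ)) (hφ : ∀ g, 0 ≤ φ g) {ε : ℝ} (hε : 0 < ε) :
    ∀ᶠ x : ℝ in 𝓝[>] 1, ∀ s : Set P, Integrable φ (smeas pos (wt den x) s) ∧
      ∫ g, φ g ∂(smeas pos (wt den x) s) ≤ 4 * c⁻¹ * ∫ g, φ g ∂μ + ε := by
  have h1 := count_of_sep (pos := pos) (den := den) B hBm hBlim hc hBμ hsep φ hφ
  have h2 := eventually_sum_wt_le (μ := μ) (inv_nonneg.2 hc.le) hden
    (fun K Q hK ↦ finite_of_sep B hBm hBlim hc hBμ hsep hK Q) φ hφ h1 hε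
  filter_upwards [h2] with x hx s
  exact integral_smeas_le (wt_nonneg hden x) s φ.continuous hφ hx

end up

end Vale.Agent.P011.H380.Theta
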