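import Vale.Agent.P011.H380.Model
import Vale.Agent.P011.H83.ContrFF

/-!
# The hypotheses `Good`, function fields
-/

set_option linter.unusedSectionVars false

open MeasureTheory Filter Topology Set Module
open scoped ENNReal NNReal CompactlySupported

namespace Vale.Agent.P011.H380.UpBC

open Vale.Agent.P011.H544 Vale.Agent.P011.H83 Vale.Agent.P011.H380.UnitsTop
  Vale.Agent.P011.H738 Vale.Agent.P011.H271

variable {k : Type} [Field k] [GFF k]

instance instSecKSF (S : Finset (Place k)) : SecondCountableTopology (KSF S) := inferInstance

theorem goodUnits_KSF (S : Finset (Place k)) : GoodUnits (KSF S) :=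
  GoodUnits.pi fun _ ↦ GoodUnits.field

/-- **Function fields.** -/
theorem good_KSF {S : Finset (Place k)} (hS : S.Nonempty) : Good k (KSF S) (OSF S) where
  det := KSF_detOne S
  units := goodUnits_KSF S
  contr := contr_KSF S
  disc := OSF_disc
  coc := OSF_coc hS
  frac := OSF_den hS

end Vale.Agent.P011.H380.UpBC
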