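import Vale.Agent.P011.H380.UpNF

/-!
# Choice of `S`

Finitely many elements of `D` belong to the order over the `S`-integers for all large `S`.
-/

set_option linter.unusedSectionVars false

open Module NumberField IsDedekindDomain

namespace Vale.Agent.P011.H380.ChoiceS

open Vale.Agent.P011.H544 Vale.Agent.P011.H380.UpBC

section general

variable {k A ι : Type*} [Field k] [DivisionRing A] [StarRing A] [Algebra k A] [Fintype ι]
  (a : Basis ι k A)

/-- A criterion for the elements of the order. -/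
theorem mem_ordO {O : Subring k} {x : A} (h1 : ∀ l, InL a O (x * a l))
    (h2 : ∀ l, InL a O (star x * a l)) : x ∈ ordO a O := by
  have hL : ∀ z : A, (∀ l, InL a O (z * a l)) → ∀ y, InL a O y → InL a O (z * y) := by
    intro z hz y hy
    rw [← a.sum_repr y, Finset.mul_sum]
    refine InL.sum a _ _ fun l _ => ?_
    rw [mul_smul_comm]
    exact InL.smul a (hy l) (hz l)
  exact ⟨hL x h1, hL _ h2⟩

/-- Finitely many coordinates decide. -/
theorem exists_coords (F : Finset A) : ∃ Z : Finset k, ∀ O : Subring k, (∀ z ∈ Z, z ∈ O) →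
    ∀ x ∈ F, x ∈ ordO a O := by
  classical
  refine ⟨(F ×ˢ (Finset.univ ×ˢ Finset.univ)).image
      (fun p : A × (ι × ι) ↦ a.repr (p.1 * a p.2.1) p.2.2) ∪
    (F ×ˢ (Finset.univ ×ˢ Finset.univ)).image
      (fun p : A × (ι × ι) ↦ a.repr (star p.1 * a p.2.1) p.2.2), fun O hO x hx ↦ ?_⟩
  refine mem_ordO a (fun l i ↦ hO _ ?_) fun l i ↦ hO _ ?_
  · refine Finset.mem_union_left _ (Finset.mem_image.2 ⟨(x, (l, i)), ?_, rfl⟩)
    simp [hx]
  · refine Finset.mem_union_right _ (Finset.mem_image.2 ⟨(x, (l, i)), ?_, rfl⟩)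
    simp [hx]

end general

section nf

variable {k D : Type} [Field k] [NumberField k] [DivisionRing D] [StarRing D] [Algebra k D]
  {N : ℕ} (B : Basis (Fin N) k D)

theorem exists_mem_OS (c : k) : ∃ S0 : Finset (HeightOneSpectrum (𝓞 k)), ∀ S, S0 ⊆ S →
    c ∈ OS k S := by
  have hfin : {v : HeightOneSpectrum (𝓞 k) | ¬ v.valuation k c ≤ 1}.Finite := by
    obtain ⟨d, hd, hd0, m, hm⟩ : ∃ d : 𝓞 k, d ≠ 0 ∧ (d : k) ≠ 0 ∧ ∃ m : 𝓞 k, (m : k) = d * c := by
      obtain ⟨n, d, hd, rfl⟩ := IsFractionRing.div_surjective (A := 𝓞 k) c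
      have hd1 : d ≠ 0 := nonZeroDivisors.ne_zero hd
      have hd0 : algebraMap (𝓞 k) k d ≠ 0 := by simpa using hd1
      exact ⟨d, hd1, hd0, n, by
        change algebraMap (𝓞 k) k n = algebraMap (𝓞 k) k d * _
        field_simp⟩
    refine (Ideal.finite_factors (I := Ideal.span {d}) (by simpa using hd)).subset ?_
    intro v hv
    rw [Set.mem_ofPred_eq, ← v.valuation_lt_one_iff_dvd (K := k)]
    by_contra hlt
    have h1 : v.valuation k (algebraMap (𝓞 k) k d) = 1 :=
      le_antisymm (v.valuation_le_one d) (not_lt.1 hlt)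
    refine hv ?_
    have h2 : v.valuation k (algebraMap (𝓞 k) k m) ≤ 1 := v.valuation_le_one m
    have h3 : algebraMap (𝓞 k) k m = algebraMap (𝓞 k) k d * c := hm
    rwa [h3, map_mul, h1, one_mul] at h2
  refine ⟨hfin.toFinset, fun S hS v hv ↦ ?_⟩
  by_contra h
  exact hv (hS (hfin.mem_toFinset.2 h))

/-- **Choice of `S`**, number fields. -/
theorem exists_S (F : Finset D) (S1 : Finset (HeightOneSpectrum (𝓞 k))) :
    ∃ S0 : Finset (HeightOneSpectrum (𝓞 k)), S1 ⊆ S0 ∧ ∀ S, S0 ⊆ S →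
      ∀ x ∈ F, x ∈ ordO B (OS k S) := by
  classical
  obtain ⟨Z, hZ⟩ := exists_coords B F
  choose S hS using fun c : k ↦ exists_mem_OS c
  refine ⟨S1 ∪ Z.biUnion S, Finset.subset_union_left, fun S' hS' ↦ hZ _ fun z hz ↦ ?_⟩
  refine hS z S' (subset_trans ?_ hS')
  exact (Finset.subset_biUnion_of_mem S hz).trans Finset.subset_union_right

end nf

end Vale.Agent.P011.H380.ChoiceS
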