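import Vale.Agent.P011.H380.Theta

/-!
# From counting to the asymptotic upper bound

`den : P → ℝ` is a denominator function.  If the number of points of denominator `≤ Q` in a cell
is asymptotically at most `C Q` times its volume, then the weights `(x - 1) den p ^ (-x)`,
`x → 1+`, satisfy the upper bound of `Theta.Data` with the constant `4 C`.
-/

set_option linter.unusedSectionVars false
set_option linter.style.haveILetI false

open MeasureTheory Filter Topology Set
open scoped CompactlySupported ENNReal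

namespace Vale.Agent.P011.H380.Theta

section Partial

variable {P : Type*}

theorem one_sub_half_rpow {t : ℝ} (h0 : 0 ≤ t) (h1 : t ≤ 1) : t / 2 ≤ 1 - (2 : ℝ) ^ (-t) := by
  have h := rpow_one_add_le_one_add_mul_self (s := -(1 / 2)) (by norm_num) h0 h1
  have h2 : (2 : ℝ) ^ (-t) = (1 + -(1 / 2) : ℝ) ^ t := by
    rw [show (1 + -(1 / 2) : ℝ) = 2⁻¹ by norm_num, Real.inv_rpow (by norm_num),
      Real.rpow_neg (by norm_num)]
  rw [h2]
  linarith

theorem geom_le {q : ℝ} (h0 : 0 ≤ q) (h1 : q < 1) (K : ℕ) :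
    ∑ k ∈ Finset.range K, q ^ k ≤ 1 / (1 - q) := by
  rw [one_div, ← tsum_geometric_of_lt_one h0 h1]
  exact (summable_geometric_of_lt_one h0 h1).sum_le_tsum _ fun k _ ↦ pow_nonneg h0 k

/-- Dyadic partial summation. -/
theorem sum_rpow_le {κ den : P → ℝ} (hκ : ∀ p, 0 ≤ κ p) (hden : ∀ p, 1 ≤ den p) {N0 a : ℝ}
    (hN0 : 0 ≤ N0) (ha : 0 ≤ a)
    (h : ∀ (s : Finset P) (Q : ℝ), 1 ≤ Q → (∀ p ∈ s, den p ≤ Q) → ∑ p ∈ s, κ p ≤ N0 + a * Q)
    {x : ℝ} (hx1 : 1 < x) (hx2 : x ≤ 2) (s : Finset P) :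
    ∑ p ∈ s, κ p * den p ^ (-x) ≤ 2 * N0 + 4 * a / (x - 1) := by
  classical
  have hden0 : ∀ p, 0 < den p := fun p ↦ lt_of_lt_of_le one_pos (hden p)
  set k : P → ℕ := fun p ↦ ⌊Real.logb 2 (den p)⌋₊ with hk
  have hlog : ∀ p, 0 ≤ Real.logb 2 (den p) := fun p ↦ Real.logb_nonneg (by norm_num) (hden p)
  have hk1 : ∀ p, (2 : ℝ) ^ (k p) ≤ den p := by
    intro p
    have := Nat.floor_le (hlog p)
    rw [← Real.rpow_natCast]
    exact (Real.le_logb_iff_rpow_le (by norm_num) (hden0 p)).1 this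
  have hk2 : ∀ p, den p ≤ (2 : ℝ) ^ (k p + 1) := by
    intro p
    have := (Nat.lt_floor_add_one (Real.logb 2 (den p))).le
    rw [← Real.rpow_natCast]
    push_cast
    exact (Real.logb_le_iff_le_rpow (by norm_num) (hden0 p)).1 this
  obtain ⟨K, hK⟩ : ∃ K : ℕ, ∀ p ∈ s, k p < K := by
    refine ⟨s.sup k + 1, fun p hp ↦ Nat.lt_succ_of_le (Finset.le_sup hp)⟩
  set q1 : ℝ := (2 : ℝ) ^ (-x) with hq1
  set q2 : ℝ := (2 : ℝ) ^ (-(x - 1)) with hq2
  have hq10 : 0 < q1 := by positivity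
  have hq20 : 0 < q2 := by positivity
  have hq11 : q1 ≤ 1 / 2 := by
    have : q1 ≤ (2 : ℝ) ^ (-1 : ℝ) := Real.rpow_le_rpow_of_exponent_le (by norm_num) (by linarith)
    rwa [Real.rpow_neg_one, ← one_div] at this
  have hq21 : (x - 1) / 2 ≤ 1 - q2 := one_sub_half_rpow (by linarith) (by linarith)
  have hq22 : q2 < 1 := by linarith
  calc ∑ p ∈ s, κ p * den p ^ (-x)
      = ∑ j ∈ Finset.range K, ∑ p ∈ s with k p = j, κ p * den p ^ (-x) :=
        (Finset.sum_fiberwise_of_maps_to (fun p hp ↦ Finset.mem_range.2 (hK p hp)) _).symm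
    _ ≤ ∑ j ∈ Finset.range K, q1 ^ j * (N0 + a * 2 ^ (j + 1)) := by
        refine Finset.sum_le_sum fun j _ ↦ ?_
        calc ∑ p ∈ s with k p = j, κ p * den p ^ (-x)
            ≤ ∑ p ∈ s with k p = j, κ p * q1 ^ j := by
              refine Finset.sum_le_sum fun p hp ↦ mul_le_mul_of_nonneg_left ?_ (hκ p)
              have hpj : k p = j := (Finset.mem_filter.1 hp).2
              have h1 : (2 : ℝ) ^ (j : ℝ) ≤ den p := by
                rw [Real.rpow_natCast, ← hpj]; exact hk1 p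
              calc den p ^ (-x) ≤ ((2 : ℝ) ^ (j : ℝ)) ^ (-x) :=
                    Real.rpow_le_rpow_of_nonpos (by positivity) h1 (by linarith)
                _ = q1 ^ j := by
                    rw [← Real.rpow_mul (by norm_num), hq1, ← Real.rpow_natCast,
                      ← Real.rpow_mul (by norm_num)]
                    ring_nf
          _ = q1 ^ j * ∑ p ∈ s with k p = j, κ p := by rw [← Finset.sum_mul, mul_comm]
          _ ≤ q1 ^ j * (N0 + a * 2 ^ (j + 1)) := by
              refine mul_le_mul_of_nonneg_left (h _ _ ?_ fun p hp ↦ ?_) (by positivity)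
              · exact one_le_pow₀ (by norm_num)
              · rw [← (Finset.mem_filter.1 hp).2]; exact hk2 p
    _ = N0 * ∑ j ∈ Finset.range K, q1 ^ j + 2 * a * ∑ j ∈ Finset.range K, q2 ^ j := by
        rw [Finset.mul_sum, Finset.mul_sum, ← Finset.sum_add_distrib]
        refine Finset.sum_congr rfl fun j _ ↦ ?_
        have h2 : q2 ^ j = q1 ^ j * 2 ^ j := by
          rw [← mul_pow, hq1, hq2, show -(x - 1) = -x + 1 by ring,
            Real.rpow_add (by norm_num), Real.rpow_one]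
        rw [h2]
        ring
    _ ≤ N0 * (1 / (1 - q1)) + 2 * a * (1 / (1 - q2)) := by
        gcongr
        · exact geom_le hq10.le (by linarith) K
        · exact geom_le hq20.le hq22 K
    _ ≤ N0 * 2 + 2 * a * (2 / (x - 1)) := by
        have e1 : 1 / (1 - q1) ≤ 2 := by rw [div_le_iff₀ (by linarith)]; linarith
        have e2 : 1 / (1 - q2) ≤ 2 / (x - 1) := by
          rw [div_le_div_iff₀ (by linarith) (by linarith)]; linarith
        exact add_le_add (mul_le_mul_of_nonneg_left e1 hN0)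
          (mul_le_mul_of_nonneg_left e2 (by positivity))
    _ = 2 * N0 + 4 * a / (x - 1) := by ring

end Partial

variable {X : Type*} [TopologicalSpace X] [T2Space X] [LocallyCompactSpace X]
  [MeasurableSpace X] [BorelSpace X]
variable {Δ : Type*} [Group Δ] [MulAction Δ X] [ContinuousConstSMul Δ X]
  {P : Type*} [MulAction Δ P] {Rc : Type*} [MulAction Δ Rc] [DecidableEq Rc]
  {ι : Type*}

/-- The weights `(x - 1) den p ^ (-x)`. -/
noncomputable def wt (den : P → ℝ) (x : ℝ) (p : P) : ℝ := max (x - 1) 0 * den p ^ (-x)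

/-- The asymptotic upper bound from counting. -/
theorem data_of_count {μ : Measure X} [IsFiniteMeasureOnCompacts μ] {pos : P → X} {col : P → Rc}
    {den : P → ℝ} {C : ℝ} (hC : 0 ≤ C)
    (pos_smul : ∀ (d : Δ) (p : P), pos (d • p) = d • pos p)
    (col_smul : ∀ (d : Δ) (p : P), col (d • p) = d • col p)
    (hden : ∀ p, 1 ≤ den p) (den_smul : ∀ (d : Δ) (p : P), den (d • p) = den p)
    (hfin : ∀ (K : Set X) (Q : ℝ), IsCompact K → {p | pos p ∈ K ∧ den p ≤ Q}.Finite)
    (hcnt : ∀ κ : C_c(X, ℝ), (∀ x, 0 ≤ κ x) → ∀ ε > 0, ∀ᶠ Q : ℝ in atTop,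
      ∀ s : Finset P, (∀ p ∈ s, den p ≤ Q) → ∑ p ∈ s, κ (pos p) ≤ (C * ∫ x, κ x ∂μ + ε) * Q) :
    Data Δ μ pos col (wt den) (𝓝[>] 1) (4 * C) := by
  classical
  -- the main bound
  have main : ∀ κ : C_c(X, ℝ), (∀ x, 0 ≤ κ x) → ∀ ε > 0, ∃ N0 : ℝ, 0 ≤ N0 ∧
      ∀ x : ℝ, 1 < x → x ≤ 2 → ∀ s : Finset P, ∑ p ∈ s, κ (pos p) * den p ^ (-x) ≤
        2 * N0 + 4 * (C * ∫ y, κ y ∂μ + ε) / (x - 1) := by
    intro κ hκ ε hε
    obtain ⟨Q0, hQ0⟩ := eventually_atTop.1 (hcnt κ hκ ε hε)
    set T : Finset P := (hfin (tsupport κ) Q0 κ.hasCompactSupport).toFinset with hT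
    have hI : 0 ≤ ∫ x, κ x ∂μ := integral_nonneg hκ
    refine ⟨∑ p ∈ T, κ (pos p), Finset.sum_nonneg fun p _ ↦ hκ _, fun x hx1 hx2 s ↦ ?_⟩
    refine sum_rpow_le (fun p ↦ hκ _) hden (Finset.sum_nonneg fun p _ ↦ hκ _) (by positivity)
      ?_ hx1 hx2 s
    intro s Q hQ hs
    rcases le_total Q0 Q with h | h
    · have h1 := hQ0 Q h s hs
      have h2 : 0 ≤ ∑ p ∈ T, κ (pos p) := Finset.sum_nonneg fun p _ ↦ hκ _
      linarith
    · have h1 : ∑ p ∈ s, κ (pos p) ≤ ∑ p ∈ T, κ (pos p) := by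
        rw [← Finset.sum_filter_add_sum_filter_not s (fun p ↦ p ∈ T)]
        have h3 : ∑ p ∈ s with p ∉ T, κ (pos p) = 0 := by
          refine Finset.sum_eq_zero fun p hp ↦ ?_
          obtain ⟨hps, hpT⟩ := Finset.mem_filter.1 hp
          have : pos p ∉ tsupport κ := by
            intro h4
            exact hpT ((hfin _ _ κ.hasCompactSupport).mem_toFinset.2
              ⟨h4, (hs p hps).trans h⟩)
          exact image_eq_zero_of_notMem_tsupport this
        rw [h3, add_zero]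
        exact Finset.sum_le_sum_of_subset_of_nonneg
          (fun p hp ↦ (Finset.mem_filter.1 hp).2) fun p _ _ ↦ hκ _
      have h2 : 0 ≤ (C * ∫ x, κ x ∂μ + ε) * Q := by positivity
      linarith
  refine ⟨by positivity, pos_smul, col_smul, fun x p ↦ ?_, fun x d p ↦ ?_, fun x K hK ↦ ?_,
    fun κ hκ ε hε ↦ ?_⟩
  · have := hden p
    exact mul_nonneg (le_max_right _ _) (by positivity)
  · simp [wt, den_smul]
  · -- local finiteness
    rcases le_or_gt x 1 with hx | hx
    · have : (fun p ↦ wt den x p * K.indicator 1 (pos p)) = fun _ ↦ (0 : ℝ) := by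
        funext p
        simp [wt, max_eq_right (by linarith : x - 1 ≤ 0)]
      rw [this]
      exact summable_zero
    · obtain ⟨f, hf1, hf2, hf3⟩ : ∃ f : C_c(X, ℝ), Set.EqOn (⇑f) 1 K ∧
          tsupport ⇑f ⊆ univ ∧ ∀ (x : X), f x ∈ Set.Icc 0 1 := by
        obtain ⟨f, hf1, hf2, hf3⟩ :=
          exists_continuousMap_one_of_isCompact_subset_isOpen hK isOpen_univ (subset_univ _)
        exact ⟨⟨f, hasCompactSupport_def.mpr hf2⟩, hf1, hf3⟩
      obtain ⟨N0, hN0, hmain⟩ := main f (fun x ↦ (hf3 x).1) 1 one_pos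
      set y := min x 2 with hy
      have hy1 : 1 < y := lt_min hx (by norm_num)
      have hsum : Summable fun p ↦ f (pos p) * den p ^ (-y) := by
        refine summable_of_sum_le (fun p ↦ mul_nonneg (hf3 _).1 ?_)
          (hmain y hy1 (min_le_right _ _))
        have := hden p
        positivity
      refine Summable.of_nonneg_of_le (fun p ↦ ?_) (fun p ↦ ?_) (hsum.mul_left (x - 1))
      · have := hden p
        refine mul_nonneg (mul_nonneg (le_max_right _ _) (by positivity)) ?_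
        exact indicator_nonneg (fun _ _ ↦ zero_le_one) _
      · have h1 : K.indicator 1 (pos p) ≤ f (pos p) := by
          by_cases hp : pos p ∈ K
          · simp [hp, hf1 hp]
          · simp [hp, (hf3 _).1]
        have h2 : den p ^ (-x) ≤ den p ^ (-y) :=
          Real.rpow_le_rpow_of_exponent_le (hden p) (neg_le_neg (min_le_left _ _))
        have h3 : 0 ≤ den p ^ (-x) := by have := hden p; positivity
        have h4 : 0 ≤ K.indicator (1 : X → ℝ) (pos p) :=
          indicator_nonneg (fun _ _ ↦ zero_le_one) _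
        rw [wt, max_eq_left (by linarith : (0 : ℝ) ≤ x - 1), mul_assoc]
        refine mul_le_mul_of_nonneg_left ?_ (by linarith)
        rw [mul_comm (f (pos p))]
        exact mul_le_mul h2 h1 h4 (h3.trans h2)
  · -- the upper bound
    obtain ⟨N0, hN0, hmain⟩ := main κ hκ (ε / 8) (by positivity)
    have h1 : ∀ᶠ x : ℝ in 𝓝[>] 1, x ∈ Ioo 1 (1 + min 1 (ε / (4 * (N0 + 1)))) :=
      Ioo_mem_nhdsGT (by
        have : 0 < min 1 (ε / (4 * (N0 + 1))) := lt_min one_pos (by positivity)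
        linarith)
    filter_upwards [h1] with x hx
    have hx1 : 1 < x := hx.1
    have hx2 : x ≤ 2 := by
      have := hx.2.le
      have h2 := min_le_left 1 (ε / (4 * (N0 + 1)))
      linarith
    have hx3 : x - 1 ≤ ε / (4 * (N0 + 1)) := by
      have := hx.2.le
      have h2 := min_le_right 1 (ε / (4 * (N0 + 1)))
      linarith
    have hnn : ∀ p, 0 ≤ wt den x p * κ (pos p) := by
      intro p
      have := hden p
      exact mul_nonneg (mul_nonneg (le_max_right _ _) (by positivity)) (hκ _)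
    refine Real.tsum_le_of_sum_le hnn fun s ↦ ?_
    have hI : 0 ≤ ∫ x, κ x ∂μ := integral_nonneg hκ
    calc ∑ p ∈ s, wt den x p * κ (pos p)
        = (x - 1) * ∑ p ∈ s, κ (pos p) * den p ^ (-x) := by
          rw [Finset.mul_sum]
          refine Finset.sum_congr rfl fun p _ ↦ ?_
          rw [wt, max_eq_left (by linarith : (0 : ℝ) ≤ x - 1)]
          ring
      _ ≤ (x - 1) * (2 * N0 + 4 * (C * ∫ y, κ y ∂μ + ε / 8) / (x - 1)) :=
          mul_le_mul_of_nonneg_left (hmain x hx1 hx2 s) (by linarith)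
      _ = 2 * N0 * (x - 1) + 4 * (C * ∫ y, κ y ∂μ + ε / 8) := by
          have : x - 1 ≠ 0 := by linarith
          field_simp
      _ ≤ 2 * N0 * (ε / (4 * (N0 + 1))) + 4 * (C * ∫ y, κ y ∂μ + ε / 8) := by gcongr
      _ ≤ ε / 2 + 4 * (C * ∫ y, κ y ∂μ + ε / 8) := by
          gcongr
          rw [mul_div_assoc', div_le_div_iff₀ (by positivity) (by norm_num)]
          nlinarith
      _ = 4 * C * ∫ y, κ y ∂μ + ε := by ring

end Vale.Agent.P011.H380.Theta
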