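import Vale.Agent.P011.H380.Theta

/-!
# Uniform colours for Riemann integrable test functions
-/

set_option linter.unusedSectionVars false
set_option linter.style.haveILetI false

open MeasureTheory Filter Topology Set
open scoped CompactlySupported ENNReal

namespace Vale.Agent.P011.H380.Theta

variable {X : Type*} [TopologicalSpace X] [T2Space X] [LocallyCompactSpace X]
  [MeasurableSpace X] [BorelSpace X]

/-- `F` can be approximated by test functions, up to test functions of small integral. -/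
def Riem (μ : Measure X) (F : X → ℝ) : Prop :=
  ∀ δ > 0, ∃ κ κ' : C_c(X, ℝ), (∀ x, |F x - κ x| ≤ κ' x) ∧ ∫ x, κ' x ∂μ ≤ δ

theorem Riem.of_cc (μ : Measure X) (κ : C_c(X, ℝ)) : Riem μ κ := fun δ hδ ↦
  ⟨κ, 0, fun x ↦ by simp, by simpa using hδ.le⟩

theorem Riem.add {μ : Measure X} [IsFiniteMeasureOnCompacts μ] {F G : X → ℝ} (hF : Riem μ F)
    (hG : Riem μ G) : Riem μ fun x ↦ F x + G x := by
  intro δ hδ
  obtain ⟨κ, κ', h1, h2⟩ := hF (δ / 2) (by positivity)
  obtain ⟨η, η', h3, h4⟩ := hG (δ / 2) (by positivity)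
  refine ⟨κ + η, κ' + η', fun x ↦ ?_, ?_⟩
  · calc |F x + G x - (κ + η) x| = |(F x - κ x) + (G x - η x)| := by
          congr 1; simp only [CompactlySupportedContinuousMap.coe_add, Pi.add_apply]; ring
      _ ≤ |F x - κ x| + |G x - η x| := abs_add_le _ _
      _ ≤ κ' x + η' x := add_le_add (h1 x) (h3 x)
  · calc ∫ x, (κ' + η') x ∂μ = ∫ x, κ' x ∂μ + ∫ x, η' x ∂μ :=
          integral_add κ'.integrable η'.integrable
      _ ≤ δ := by linarith

/-- A Riemann function has a compactly supported majorant. -/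
theorem Riem.exists_le {μ : Measure X} {F : X → ℝ} (hF : Riem μ F) :
    ∃ κ : C_c(X, ℝ), ∀ x, |F x| ≤ κ x := by
  obtain ⟨κ, κ', h1, -⟩ := hF 1 one_pos
  refine ⟨absC κ + κ', fun x ↦ ?_⟩
  calc |F x| = |κ x + (F x - κ x)| := by congr 1; ring
    _ ≤ |κ x| + |F x - κ x| := abs_add_le _ _
    _ ≤ |κ x| + κ' x := by gcongr; exact h1 x

theorem Riem.mul_continuous {μ : Measure X} [IsFiniteMeasureOnCompacts μ] {F : X → ℝ}
    (hF : Riem μ F) {g : X → ℝ} (hg : Continuous g) : Riem μ fun x ↦ F x * g x := by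
  intro δ hδ
  obtain ⟨κ0, hκ0⟩ := hF.exists_le
  -- bound of `g` on the support of the majorant
  obtain ⟨M, hM⟩ := κ0.hasCompactSupport.isCompact.exists_bound_of_continuousOn
    (f := g) hg.continuousOn
  set M' := max M 1
  have hM' : 0 < M' := lt_of_lt_of_le one_pos (le_max_right _ _)
  -- a truncation of `g`
  set g' : X → ℝ := fun x ↦ max (-M') (min (g x) M') with hg'
  have hg'c : Continuous g' := continuous_const.max (hg.min continuous_const)
  have hg'b : ∀ x, |g' x| ≤ M' := by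
    intro x
    rw [abs_le]
    refine ⟨le_max_left _ _, max_le (by linarith) (min_le_right _ _)⟩
  have hgg' : ∀ x ∈ tsupport κ0, g' x = g x := by
    intro x hx
    have := abs_le.1 ((hM x hx).trans (le_max_left M 1) : |g x| ≤ M')
    simp only [hg', min_eq_left this.2, max_eq_right this.1]
  obtain ⟨κ, κ', h1, h2⟩ := hF (δ / M') (by positivity)
  let η : C_c(X, ℝ) := ⟨⟨fun x ↦ κ x * g' x, by fun_prop⟩, κ.hasCompactSupport.mul_right⟩
  let η' : C_c(X, ℝ) := ⟨⟨fun x ↦ κ' x * M', by fun_prop⟩, κ'.hasCompactSupport.mul_right⟩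
  refine ⟨η, η', fun x ↦ ?_, ?_⟩
  · change |F x * g x - κ x * g' x| ≤ κ' x * M'
    have h3 : F x * g x = F x * g' x := by
      by_cases hx : x ∈ tsupport κ0
      · rw [hgg' x hx]
      · have : F x = 0 := by
          have h4 := hκ0 x
          rw [image_eq_zero_of_notMem_tsupport hx] at h4
          exact abs_nonpos_iff.1 h4
        simp [this]
    rw [h3, ← sub_mul, abs_mul]
    have h5 : 0 ≤ κ' x := (abs_nonneg _).trans (h1 x)
    exact mul_le_mul (h1 x) (hg'b x) (abs_nonneg _) h5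
  · change ∫ x, κ' x * M' ∂μ ≤ δ
    rw [integral_mul_const]
    calc (∫ x, κ' x ∂μ) * M' ≤ δ / M' * M' := by gcongr
      _ = δ := by field_simp

/-- Indicators of relatively compact sets with null boundary are Riemann functions. -/
theorem Riem.indicator {μ : Measure X} [μ.Regular] {B : Set X} (hB : IsCompact (closure B))
    (h0 : μ (frontier B) = 0) : Riem μ (B.indicator 1) := by
  intro δ hδ
  have hfin : μ (closure B) ≠ ⊤ := hB.measure_lt_top.ne
  have hfin' : μ (interior B) ≠ ⊤ := ne_top_of_le_ne_top hfin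
    (measure_mono (interior_subset.trans subset_closure))
  have hci : μ (closure B) ≤ μ (interior B) := by
    calc μ (closure B) ≤ μ (interior B ∪ frontier B) := by
          rw [← closure_eq_interior_union_frontier]
      _ ≤ μ (interior B) + μ (frontier B) := measure_union_le _ _
      _ = μ (interior B) := by rw [h0, add_zero]
  have hδ' : ENNReal.ofReal (δ / 2) ≠ 0 := by simpa using hδ
  obtain ⟨K, hKU, hKc, hK⟩ : ∃ K ⊆ interior B, IsCompact K ∧
      μ (interior B) ≤ μ K + ENNReal.ofReal (δ / 2) := by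
    by_cases hz : μ (interior B) = 0
    · exact ⟨∅, empty_subset _, isCompact_empty, by simp [hz]⟩
    · obtain ⟨K, hKU, hKc, hK⟩ := isOpen_interior.exists_lt_isCompact
        (ENNReal.sub_lt_self hfin' hz hδ')
      exact ⟨K, hKU, hKc, tsub_le_iff_right.1 hK.le⟩
  obtain ⟨V, hBV, hVo, hV⟩ := (closure B).exists_isOpen_le_add μ hδ'
  obtain ⟨f, hf1, hf2, hf3⟩ : ∃ f : C_c(X, ℝ), Set.EqOn (⇑f) 1 K ∧ tsupport ⇑f ⊆ interior B ∧
      ∀ (x : X), f x ∈ Set.Icc 0 1 := by
    obtain ⟨f, hf1, hf2, hf3⟩ :=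
      exists_continuousMap_one_of_isCompact_subset_isOpen hKc isOpen_interior hKU
    exact ⟨⟨f, hasCompactSupport_def.mpr hf2⟩, hf1, hf3⟩
  obtain ⟨g, hg1, hg2, hg3⟩ : ∃ f : C_c(X, ℝ), Set.EqOn (⇑f) 1 (closure B) ∧ tsupport ⇑f ⊆ V ∧
      ∀ (x : X), f x ∈ Set.Icc 0 1 := by
    obtain ⟨f, hf1, hf2, hf3⟩ :=
      exists_continuousMap_one_of_isCompact_subset_isOpen hB hVo hBV
    exact ⟨⟨f, hasCompactSupport_def.mpr hf2⟩, hf1, hf3⟩
  refine ⟨f, g - f, fun x ↦ ?_, ?_⟩
  · have hfB : f x ≤ B.indicator 1 x := by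
      by_cases hx : x ∈ tsupport f
      · have : x ∈ B := interior_subset (hf2 hx)
        simp [this, (hf3 x).2]
      · rw [image_eq_zero_of_notMem_tsupport hx]
        exact indicator_nonneg (fun _ _ ↦ zero_le_one) x
    have hBg : B.indicator 1 x ≤ g x := by
      by_cases hx : x ∈ B
      · simp [hx, hg1 (subset_closure hx)]
      · simp [hx, (hg3 x).1]
    rw [abs_of_nonneg (by linarith)]
    change B.indicator 1 x - f x ≤ g x - f x
    linarith
  · have h1 : ∫ x, (g - f) x ∂μ = ∫ x, g x ∂μ - ∫ x, f x ∂μ :=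
      integral_sub g.integrable f.integrable
    have hVfin : μ V ≠ ⊤ := ne_top_of_le_ne_top (by finiteness) hV
    have hKfin : μ K ≠ ⊤ := hKc.measure_lt_top.ne
    have h2 : ∫ x, g x ∂μ ≤ μ.real V := by
      rw [← integral_indicator_one hVo.measurableSet]
      refine integral_mono g.integrable
        (IntegrableOn.integrable_indicator (integrableOn_const hVfin) hVo.measurableSet) ?_
      intro x
      by_cases hx : x ∈ tsupport g
      · simp [hg2 hx, (hg3 x).2]
      · simp only [image_eq_zero_of_notMem_tsupport hx]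
        exact indicator_nonneg (fun _ _ ↦ zero_le_one) x
    have h3 : μ.real K ≤ ∫ x, f x ∂μ := by
      rw [← integral_indicator_one hKc.measurableSet]
      refine integral_mono (IntegrableOn.integrable_indicator (integrableOn_const hKfin)
        hKc.measurableSet) f.integrable ?_
      intro x
      by_cases hx : x ∈ K
      · simp [hx, hf1 hx]
      · simp [hx, (hf3 x).1]
    have h4 : μ.real V ≤ μ.real K + δ := by
      have h5 : μ V ≤ μ K + ENNReal.ofReal (δ / 2) + ENNReal.ofReal (δ / 2) := by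
        refine hV.trans ?_
        gcongr
        exact hci.trans hK
      rw [add_assoc, ← ENNReal.ofReal_add (by positivity) (by positivity), add_halves] at h5
      have := ENNReal.toReal_mono (by finiteness) h5
      rwa [ENNReal.toReal_add hKfin (by finiteness), ENNReal.toReal_ofReal hδ.le] at this
    rw [h1]
    linarith

variable {Δ : Type*} [Group Δ] [MulAction Δ X] [ContinuousConstSMul Δ X]
  {P : Type*} [MulAction Δ P] {Rc : Type*} [MulAction Δ Rc] [DecidableEq Rc]
  {ι : Type*}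
  {μ : Measure X} {pos : P → X} {col : P → Rc} {W : ι → P → ℝ} {𝓕 : Filter ι} {C : ℝ}

theorem Data.summable_of_le (D : Data Δ μ pos col W 𝓕 C) (i : ι) {F : X → ℝ} {κ : C_c(X, ℝ)}
    (h : ∀ x, |F x| ≤ κ x) : Summable fun p ↦ W i p * F (pos p) := by
  refine Summable.of_norm_bounded (D.summable i κ) fun p ↦ ?_
  rw [Real.norm_eq_abs, abs_mul, abs_of_nonneg (D.W_nonneg i p)]
  exact mul_le_mul_of_nonneg_left (h _) (D.W_nonneg i p)

theorem Data.summable_col_of_le (D : Data Δ μ pos col W 𝓕 C) (i : ι) (r : Rc) {F : X → ℝ}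
    {κ : C_c(X, ℝ)} (h : ∀ x, |F x| ≤ κ x) :
    Summable fun p ↦ W i p * (if col p = r then F (pos p) else 0) := by
  refine Summable.of_norm_bounded (D.summable i κ) fun p ↦ ?_
  rw [Real.norm_eq_abs, abs_mul, abs_of_nonneg (D.W_nonneg i p)]
  refine mul_le_mul_of_nonneg_left ?_ (D.W_nonneg i p)
  split_ifs
  · exact h _
  · simpa using (abs_nonneg _).trans (h (pos p))

theorem Data.abs_csum_sub_le (D : Data Δ μ pos col W 𝓕 C) (i : ι) (r : Rc) {F : X → ℝ}
    {κ κ' : C_c(X, ℝ)} (h : ∀ x, |F x - κ x| ≤ κ' x) :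
    |csum pos col (W i) r F - csum pos col (W i) r κ| ≤ ∑' p, W i p * κ' (pos p) := by
  have hF : ∀ x, |F x| ≤ (absC κ + κ') x := by
    intro x
    calc |F x| = |κ x + (F x - κ x)| := by congr 1; ring
      _ ≤ |κ x| + |F x - κ x| := abs_add_le _ _
      _ ≤ |κ x| + κ' x := by gcongr; exact h x
  have hs1 := D.summable_col_of_le i r hF
  have hs2 := D.summable_col i r κ
  unfold csum
  rw [← hs1.tsum_sub hs2]
  refine (norm_tsum_le_tsum_norm (hs1.sub hs2).norm).trans ?_
  refine Summable.tsum_le_tsum (fun p ↦ ?_) (hs1.sub hs2).norm (D.summable i _)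
  rw [← mul_sub, Real.norm_eq_abs, abs_mul, abs_of_nonneg (D.W_nonneg i p)]
  refine mul_le_mul_of_nonneg_left ?_ (D.W_nonneg i p)
  split_ifs
  · exact h _
  · simpa using (abs_nonneg _).trans (h (pos p))

/-- Equidistribution of colours, for Riemann test functions varying with `i`. -/
theorem tendsto_csum_sub_riem [SecondCountableTopology X] [μ.Regular] [SMulInvariantMeasure Δ X μ]
    (D : Data Δ μ pos col W 𝓕 C) (r : Rc) (d : Δ)
    (hErg : ∀ E : X → ℝ, Measurable E → (∃ M, ∀ x, |E x| ≤ M) →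
      (∀ d' : Δ, (∀ s : Rc, d' • s = s) → (fun x ↦ E (d' • x)) =ᵐ[μ] E) →
      (fun x ↦ E (d • x)) =ᵐ[μ] E) {F : X → ℝ} (hF : Riem μ F) :
    Tendsto (fun i ↦ csum pos col (W i) (d • r) F - csum pos col (W i) r F) 𝓕 (𝓝 0) := by
  rw [Metric.tendsto_nhds]
  intro ε hε
  obtain ⟨κ, κ', h1, h2⟩ := hF (ε / (8 * (C + 1))) (by have := D.C_nonneg; positivity)
  have h3 := tendsto_csum_sub D r d hErg κ
  rw [Metric.tendsto_nhds] at h3
  filter_upwards [h3 (ε / 4) (by positivity),
    D.upper κ' (fun x ↦ (abs_nonneg _).trans (h1 x)) (ε / 8) (by positivity)] with i h4 h5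
  rw [dist_zero_right, Real.norm_eq_abs] at h4 ⊢
  have h6 := D.abs_csum_sub_le i (d • r) h1
  have h7 := D.abs_csum_sub_le i r h1
  have h8 : C * ∫ x, κ' x ∂μ ≤ ε / 8 := by
    have hC := D.C_nonneg
    have h9 : C / (C + 1) ≤ 1 := (div_le_one (by linarith)).2 (by linarith)
    calc C * ∫ x, κ' x ∂μ ≤ C * (ε / (8 * (C + 1))) := by gcongr
      _ = C / (C + 1) * (ε / 8) := by field_simp
      _ ≤ 1 * (ε / 8) := by gcongr
      _ = ε / 8 := one_mul _
  rw [abs_lt] at h4 ⊢
  rw [abs_le] at h6 h7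
  constructor <;> linarith [h6.1, h6.2, h7.1, h7.2, h4.1, h4.2]

/-- Perturbation of the test function. -/
theorem tendsto_csum_perturb [IsFiniteMeasureOnCompacts μ] (D : Data Δ μ pos col W 𝓕 C) (r : Rc)
    {G : ι → X → ℝ} {F : X → ℝ} {κ : C_c(X, ℝ)} (hF : ∀ x, |F x| ≤ κ x)
    (h : ∀ ε > 0, ∀ᶠ i in 𝓕, ∀ x, |G i x - F x| ≤ ε * κ x) :
    Tendsto (fun i ↦ csum pos col (W i) r (G i) - csum pos col (W i) r F) 𝓕 (𝓝 0) := by
  have hκ : ∀ x, 0 ≤ κ x := fun x ↦ (abs_nonneg _).trans (hF x)
  have hI : 0 ≤ ∫ x, κ x ∂μ := integral_nonneg hκ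
  have hC := D.C_nonneg
  rw [Metric.tendsto_nhds]
  intro ε hε
  set η := ε / (2 * (C * ∫ x, κ x ∂μ + 1)) with hη
  have hη0 : 0 < η := by positivity
  filter_upwards [h η hη0, D.upper κ hκ 1 one_pos] with i h1 h2
  rw [dist_zero_right, Real.norm_eq_abs]
  have hG : ∀ x, |G i x| ≤ ((η + 1) • κ : C_c(X, ℝ)) x := by
    intro x
    calc |G i x| = |(G i x - F x) + F x| := by congr 1; ring
      _ ≤ |G i x - F x| + |F x| := abs_add_le _ _
      _ ≤ η * κ x + κ x := add_le_add (h1 x) (hF x)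
      _ = (η + 1) * κ x := by ring
  have hs1 := D.summable_col_of_le i r hG
  have hs2 := D.summable_col_of_le i r hF
  unfold csum
  rw [← hs1.tsum_sub hs2]
  calc |∑' p, (W i p * (if col p = r then G i (pos p) else 0) -
        W i p * (if col p = r then F (pos p) else 0))|
      ≤ ∑' p, ‖W i p * (if col p = r then G i (pos p) else 0) -
        W i p * (if col p = r then F (pos p) else 0)‖ :=
        norm_tsum_le_tsum_norm (hs1.sub hs2).norm
    _ ≤ ∑' p, η * (W i p * κ (pos p)) := by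
        refine Summable.tsum_le_tsum (fun p ↦ ?_) (hs1.sub hs2).norm
          ((D.summable i _).mul_left η)
        rw [← mul_sub, Real.norm_eq_abs, abs_mul, abs_of_nonneg (D.W_nonneg i p)]
        have h3 : |(if col p = r then G i (pos p) else 0) - (if col p = r then F (pos p) else 0)|
            ≤ η * κ (pos p) := by
          split_ifs
          · exact h1 _
          · simpa using mul_nonneg hη0.le (hκ _)
        calc _ ≤ W i p * (η * κ (pos p)) := mul_le_mul_of_nonneg_left h3 (D.W_nonneg i p)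
          _ = _ := by ring
    _ = η * ∑' p, W i p * κ (pos p) := tsum_mul_left
    _ ≤ η * (C * ∫ x, κ x ∂μ + 1) := by gcongr
    _ = ε / 2 := by rw [hη]; field_simp
    _ < ε := by linarith

end Vale.Agent.P011.H380.Theta
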