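import Vale.Agent.P011.H83.Scaling
import Vale.Agent.P011.H544.TopBC

/-!
# Symmetric coordinates of the base change of a division algebra with involution

`A` a division algebra over `k` with involution of the second kind: there is a central element `w0`
with `w0 ≠ star w0`.  For the base change `E` of `A` to a topological `k`-algebra `R` we construct
the coordinates `H83.SymData` of the symmetric elements of `E`.
-/

set_option linter.unusedSectionVars false

open MeasureTheory Filter Topology Set Module
open scoped ENNReal Pointwise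

namespace Vale.Agent.P011.H380.SymBC

open Vale.Agent.P011.H544 Vale.Agent.P011.H83

section alg

variable {k A : Type*} [Field k] [DivisionRing A] [StarRing A] [Algebra k A]

/-- The symmetric elements. -/
def symS (k A : Type*) [Field k] [DivisionRing A] [StarRing A] [Algebra k A] [StarLin k A] :
    Submodule k A where
  carrier := {x | star x = x}
  zero_mem' := star_zero _
  add_mem' := fun {a b} ha hb ↦ by
    have ha' : star a = a := ha
    have hb' : star b = b := hb
    change star (a + b) = a + b
    rw [star_add, ha', hb']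
  smul_mem' := fun c x hx ↦ by
    have hx' : star x = x := hx
    change star (c • x) = c • x
    rw [StarLin.star_smul', hx']

theorem mem_symS [StarLin k A] {x : A} : x ∈ symS k A ↔ star x = x := Iff.rfl

/-- The scalar `1 / (w0 - star w0)`. -/
noncomputable def einv (w0 : A) : A := (w0 - star w0)⁻¹

variable {w0 : A} (hw : ∀ x, w0 * x = x * w0) (hne : w0 ≠ star w0)

include hw in
theorem star_comm (x : A) : star w0 * x = x * star w0 := by
  have h := congrArg star (hw (star x))
  rw [star_mul, star_mul, star_star] at h
  exact h.symm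

include hw in
theorem sub_comm' (x : A) : (w0 - star w0) * x = x * (w0 - star w0) := by
  rw [sub_mul, mul_sub, hw, star_comm hw]

include hw in
theorem einv_comm (x : A) : einv w0 * x = x * einv w0 := by
  have h : Commute (w0 - star w0) x := sub_comm' hw x
  exact h.inv_left₀

include hne in
theorem mul_einv : (w0 - star w0) * einv w0 = 1 := mul_inv_cancel₀ (sub_ne_zero.2 hne)

include hne in
theorem einv_mul : einv w0 * (w0 - star w0) = 1 := inv_mul_cancel₀ (sub_ne_zero.2 hne)

theorem star_einv : star (einv w0) = -einv w0 := by
  rw [einv, star_inv₀, star_sub, star_star, ← neg_sub w0 (star w0), inv_neg]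

/-- The retraction on the symmetric elements. -/
noncomputable def retr (k : Type*) [Field k] [Algebra k A] [StarLin k A] (w0 : A) : A →ₗ[k] A :=
  LinearMap.id - (LinearMap.mulLeft k w0 ∘ₗ LinearMap.mulLeft k (einv w0)) ∘ₗ
    (LinearMap.id - starA k A)

theorem retr_apply [StarLin k A] (x : A) :
    retr k w0 x = x - w0 * (einv w0 * (x - star x)) := rfl

include hw hne in
theorem star_retr [StarLin k A] (x : A) : star (retr k w0 x) = retr k w0 x := by
  rw [retr_apply, star_sub, star_mul, star_mul, star_sub, star_star, star_einv]
  have h1 : (star x - x) * -einv w0 * star w0 = star w0 * (einv w0 * (x - star x)) := by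
    rw [star_comm hw, einv_comm hw]
    noncomm_ring
  rw [h1]
  have h2 : (w0 - star w0) * (einv w0 * (x - star x)) = x - star x := by
    rw [← mul_assoc, mul_einv hne, one_mul]
  rw [sub_mul] at h2
  rw [sub_eq_iff_eq_add.1 h2]
  noncomm_ring

theorem retr_of_sym [StarLin k A] {x : A} (hx : star x = x) : retr k w0 x = x := by
  rw [retr_apply, hx, sub_self, mul_zero, mul_zero, sub_zero]

/-- The retraction, with values in the symmetric elements. -/
noncomputable def retrS [StarLin k A] : A →ₗ[k] symS k A :=
  (retr k w0).codRestrict (symS k A) fun x ↦ star_retr hw hne x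

theorem coe_retrS [StarLin k A] (x : A) : (retrS (k := k) hw hne x : A) = retr k w0 x := rfl

end alg

section bc

variable {k R A E ι : Type*} [Field k] [CommRing R] [TopologicalSpace R] [IsTopologicalRing R]
  [Algebra k R] [DivisionRing A] [StarRing A] [Algebra k A] [StarLin k A] [Ring E] [StarRing E]
  [TopologicalSpace E] [IsTopologicalRing E] [Algebra R E] [Fintype ι] [DecidableEq ι]
  (B : BC k R A E ι)

include B

theorem continuousSMul : ContinuousSMul R E := by
  refine ⟨?_⟩
  have h : (fun p : R × E ↦ p.1 • p.2) = fun p : R × E ↦ B.φ.symm (p.1 • B.φ p.2) := by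
    funext p
    rw [← map_smul, ContinuousLinearEquiv.symm_apply_apply]
  rw [h]
  have h1 := B.φ.continuous
  have h2 := B.φ.symm.continuous
  fun_prop

theorem finite : Module.Finite k A := Module.Finite.of_basis B.a

omit B in
/-- The basis of the symmetric elements. -/
noncomputable def bs (k A : Type*) [Field k] [DivisionRing A] [StarRing A] [Algebra k A]
    [StarLin k A] [Module.Finite k A] : Basis (Fin (finrank k (symS k A))) k (symS k A) :=
  Module.finBasis k (symS k A)

omit B in
theorem finrank_pos' [Module.Finite k A] : 0 < finrank k (symS k A) := by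
  have : Nontrivial (symS k A) := by
    refine ⟨0, ⟨1, star_one _⟩, fun h ↦ ?_⟩
    exact zero_ne_one (congrArg Subtype.val h)
  exact finrank_pos

omit B in
theorem nontrivial_L [Module.Finite k A] [Nontrivial R] :
    Nontrivial (Fin (finrank k (symS k A)) → R) := by
  have : Nonempty (Fin (finrank k (symS k A))) := ⟨⟨0, finrank_pos'⟩⟩
  infer_instance

/-- Every linear map from `E` to a finite free module is continuous. -/
theorem cont_to {m : ℕ} (L : E →ₗ[R] (Fin m → R)) : Continuous L := by
  have h1 : Continuous (L ∘ₗ (B.φ.symm : (ι → R) →ₗ[R] E)) := LinearMap.continuous_on_pi _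
  have h2 : (L : E → Fin m → R) = (L ∘ₗ (B.φ.symm : (ι → R) →ₗ[R] E)) ∘ B.φ := by
    funext x
    simp
  rw [h2]
  exact h1.comp B.φ.continuous

/-- Every linear map from a finite free module to `E` is continuous. -/
theorem cont_from {m : ℕ} (L : (Fin m → R) →ₗ[R] E) : Continuous L := by
  have h1 : Continuous ((B.φ : E →ₗ[R] (ι → R)) ∘ₗ L) := LinearMap.continuous_on_pi _
  have h2 : (L : (Fin m → R) → E) = B.φ.symm ∘ ((B.φ : E →ₗ[R] (ι → R)) ∘ₗ L) := by
    funext x
    simp
  rw [h2]
  exact B.φ.symm.continuous.comp h1

theorem ext_j {M : Type*} [AddCommMonoid M] [Module R M] {L L' : E →ₗ[R] M}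
    (h : ∀ x : A, L (B.j x) = L' (B.j x)) : L = L' := by
  refine B.b.ext fun i ↦ ?_
  rw [B.b_apply]
  exact h _

variable [Module.Finite k A] [Nontrivial R] {w0 : A} (hw : ∀ x, w0 * x = x * w0)
  (hne : w0 ≠ star w0)

omit B in
/-- The parametrization. -/
noncomputable def sig (B : BC k R A E ι) : (Fin (finrank k (symS k A)) → R) →ₗ[R] E :=
  Fintype.linearCombination R fun l ↦ B.j (bs k A l : A)

omit B in
theorem sig_apply (B : BC k R A E ι) (v : Fin (finrank k (symS k A)) → R) :
    sig B v = ∑ l, v l • B.j (bs k A l : A) := by
  rw [sig, Fintype.linearCombination_apply]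

omit B in
/-- The coordinates. -/
noncomputable def tau (B : BC k R A E ι) : E →ₗ[R] (Fin (finrank k (symS k A)) → R) :=
  B.b.constr R fun i l ↦ algebraMap k R ((bs k A).repr (retrS hw hne (B.a i)) l)

omit B in
theorem tau_j (B : BC k R A E ι) (x : A) :
    tau hw hne B (B.j x) = fun l ↦ algebraMap k R ((bs k A).repr (retrS hw hne x) l) := by
  rw [B.j_eq, map_sum]
  have h1 : ∀ i, tau hw hne B (algebraMap k R (B.a.repr x i) • B.b i) =
      fun l ↦ algebraMap k R (B.a.repr x i * (bs k A).repr (retrS hw hne (B.a i)) l) := by
    intro i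
    rw [map_smul, tau, Basis.constr_basis]
    funext l
    rw [Pi.smul_apply, smul_eq_mul, map_mul]
  simp only [h1]
  funext l
  rw [Finset.sum_apply, ← map_sum]
  congr 1
  conv_rhs => rw [← B.a.sum_repr x]
  rw [map_sum, map_sum, Finsupp.finsetSum_apply]
  refine Finset.sum_congr rfl fun i _ ↦ ?_
  rw [map_smul, map_smul, Finsupp.smul_apply, smul_eq_mul]

omit B in
theorem sig_tau_j (B : BC k R A E ι) (x : A) :
    sig B (tau hw hne B (B.j x)) = B.j (retr k w0 x) := by
  rw [tau_j, sig_apply]
  have h1 : ∀ l, algebraMap k R ((bs k A).repr (retrS hw hne x) l) • B.j (bs k A l : A) =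
      B.j ((bs k A).repr (retrS hw hne x) l • (bs k A l : A)) := fun l ↦ (B.j_smul _ _).symm
  simp only [h1]
  rw [← map_sum]
  congr 1
  have h2 := congrArg Subtype.val ((bs k A).sum_repr (retrS hw hne x))
  rw [coe_retrS] at h2
  rw [← h2]
  push_cast
  rfl

omit B in
/-- **Symmetric coordinates** for the base change. -/
noncomputable def symData (B : BC k R A E ι) :
    SymData R E (Fin (finrank k (symS k A)) → R) where
  w := B.j w0
  wi := B.j (einv w0)
  comm := by
    have h : LinearMap.mulLeft R (B.j w0) = LinearMap.mulRight R (B.j w0) := by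
      refine ext_j B fun x ↦ ?_
      rw [LinearMap.mulLeft_apply, LinearMap.mulRight_apply, ← map_mul, ← map_mul, hw]
    intro x
    exact LinearMap.congr_fun h x
  mul_wi := by
    rw [← B.j_star, ← map_sub, ← map_mul, mul_einv hne, map_one]
  σ := sig B
  τ := tau hw hne B
  hσ := cont_from B _
  hτ := cont_to B _
  star_σ v := by
    rw [sig_apply, star_sum]
    refine Finset.sum_congr rfl fun l _ ↦ ?_
    rw [B.star_smul, ← B.j_star]
    congr 2
    exact (bs k A l).2
  τσ := by
    have h : (tau hw hne B) ∘ₗ (sig B) = LinearMap.id := by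
      refine LinearMap.pi_ext' fun l ↦ LinearMap.ext_ring ?_
      rw [LinearMap.comp_apply, LinearMap.comp_apply, LinearMap.id_comp]
      have h1 : sig B (LinearMap.single R (fun _ ↦ R) l 1) = B.j (bs k A l : A) := by
        rw [sig_apply, Finset.sum_eq_single l]
        · simp
        · intro i _ hi
          simp [hi]
        · simp
      rw [h1, tau_j]
      funext i
      have h2 : retrS hw hne (bs k A l : A) = bs k A l := by
        refine Subtype.ext ?_
        rw [coe_retrS]
        exact retr_of_sym (bs k A l).2
      rw [h2, Basis.repr_self, LinearMap.single_apply, Finsupp.single_apply, Pi.single_apply]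
      by_cases hil : l = i
      · simp [hil]
      · rw [if_neg hil, if_neg (fun h ↦ hil h.symm), map_zero]
    intro v
    exact LinearMap.congr_fun h v
  στ := by
    have h : (sig B) ∘ₗ (tau hw hne B) = LinearMap.id -
        (LinearMap.mulLeft R (B.j w0) ∘ₗ LinearMap.mulLeft R (B.j (einv w0))) ∘ₗ
          (LinearMap.id - B.starL) := by
      refine ext_j B fun x ↦ ?_
      rw [LinearMap.comp_apply, sig_tau_j, retr_apply]
      change _ = B.j x - B.j w0 * (B.j (einv w0) * (B.j x - star (B.j x)))
      rw [map_sub, map_mul, map_mul, map_sub, B.j_star]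
    intro x hx
    have h1 := LinearMap.congr_fun h x
    rw [LinearMap.comp_apply] at h1
    rw [h1]
    change x - B.j w0 * (B.j (einv w0) * (x - star x)) = x
    rw [hx, sub_self, mul_zero, mul_zero, sub_zero]

end bc

end Vale.Agent.P011.H380.SymBC
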