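import Mathlib

/-!
# Weak limits of coloured weighted point sets

`X` is a locally compact second countable Hausdorff space with a Radon measure `μ`, `Δ` a group
acting on `X` by homeomorphisms preserving `μ`, on a set `P` of points `p` with a position
`pos p ∈ X` and a colour `col p` in a set `Rc` on which `Δ` acts too.  Weights `W i p ≥ 0` are
invariant under `Δ`.  If the weighted point sets are asymptotically bounded by `C μ` and every
bounded measurable function on `X` which is invariant under the kernel of `Δ → Perm Rc` is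
invariant under `d ∈ Δ`, then the colours `r` and `d • r` have asymptotically the same weights.
-/

set_option linter.unusedSectionVars false
set_option linter.style.haveILetI false

open MeasureTheory Filter Topology Set
open scoped CompactlySupported ENNReal

namespace Vale.Agent.P011.H380.Theta

variable {X : Type*} [TopologicalSpace X] [T2Space X] [LocallyCompactSpace X]
  [MeasurableSpace X] [BorelSpace X]

/-- Comparison of regular measures by their integrals of nonnegative test functions. -/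
theorem measure_le_of_integral_le {μ ν : Measure X} [μ.Regular] [ν.Regular]
    (h : ∀ f : C_c(X, ℝ), (∀ x, 0 ≤ f x) → ∫ x, f x ∂μ ≤ ∫ x, f x ∂ν) : μ ≤ ν := by
  have hK : ∀ K : Set X, IsCompact K → μ K ≤ ν K := by
    intro K hK
    refine ENNReal.le_of_forall_pos_le_add fun ε hε hν ↦ ?_
    have hνK : ν K ≠ ⊤ := hν.ne
    have hμK : μ K ≠ ⊤ := hK.measure_lt_top.ne
    obtain ⟨V, pV1, pV2, pV3⟩ : ∃ V ⊇ K, IsOpen V ∧ ν V ≤ ν K + ε :=
      exists_isOpen_le_add K ν (ne_of_gt (ENNReal.coe_lt_coe.mpr hε))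
    suffices μ.real K ≤ ν.real K + ε by
      rwa [← ENNReal.toReal_le_toReal, ENNReal.toReal_add, ENNReal.coe_toReal]
      all_goals finiteness
    have VltTop : ν V < ⊤ := pV3.trans_lt <| by finiteness
    obtain ⟨f, pf1, pf2, pf3⟩ :
        ∃ f : C_c(X, ℝ), Set.EqOn (⇑f) 1 K ∧ tsupport ⇑f ⊆ V ∧
          ∀ (x : X), f x ∈ Set.Icc 0 1 := by
      obtain ⟨f, hf1, hf2, hf3⟩ := exists_continuousMap_one_of_isCompact_subset_isOpen hK pV2 pV1
      exact ⟨⟨f, hasCompactSupport_def.mpr hf2⟩, hf1, hf3⟩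
    have hfV (x : X) : f x ≤ V.indicator 1 x := by
      by_cases hx : x ∈ tsupport f
      · simp [(pf2 hx), (pf3 x).2]
      · simp [image_eq_zero_of_notMem_tsupport hx, Set.indicator_nonneg]
    have hfK (x : X) : K.indicator 1 x ≤ f x := by
      by_cases hx : x ∈ K
      · simp [hx, pf1 hx]
      · simp [hx, (pf3 x).1]
    calc
      μ.real K = ∫ x, K.indicator 1 x ∂μ := integral_indicator_one hK.measurableSet |>.symm
      _ ≤ ∫ x, f x ∂μ := by
        refine integral_mono ?_ f.integrable hfK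
        exact (continuousOn_const.integrableOn_compact hK).integrable_indicator hK.measurableSet
      _ ≤ ∫ x, f x ∂ν := h f fun x ↦ (pf3 x).1
      _ ≤ ∫ x, V.indicator 1 x ∂ν := by
        refine integral_mono f.integrable ?_ hfV
        exact IntegrableOn.integrable_indicator integrableOn_const pV2.measurableSet
      _ ≤ (ν K).toReal + ↑ε := by
        rwa [integral_indicator_one pV2.measurableSet, measureReal_def,
          ← ENNReal.coe_toReal, ← ENNReal.toReal_add, ENNReal.toReal_le_toReal]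
        all_goals finiteness
  have hU : ∀ U : Set X, IsOpen U → μ U ≤ ν U := by
    intro U hU
    rw [hU.measure_eq_iSup_isCompact μ]
    refine iSup₂_le fun K hKU ↦ iSup_le fun hc ↦ (hK K hc).trans (measure_mono hKU)
  refine Measure.le_iff.2 fun A hA ↦ ?_
  rw [Set.measure_eq_iInf_isOpen A ν]
  refine le_iInf₂ fun U hAU ↦ le_iInf fun hUo ↦ (measure_mono hAU).trans (hU U hUo)

variable {Δ : Type*} [Group Δ] [MulAction Δ X] [ContinuousConstSMul Δ X]
  {P : Type*} [MulAction Δ P] {Rc : Type*} [MulAction Δ Rc] [DecidableEq Rc]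
  {ι : Type*}

/-- The weighted sum of the test function `κ` over the points of colour `r`. -/
noncomputable def csum (pos : P → X) (col : P → Rc) (W : P → ℝ) (r : Rc) (κ : X → ℝ) : ℝ :=
  ∑' p, W p * (if col p = r then κ (pos p) else 0)

variable (Δ) in
/-- Data of the limit theorem. -/
structure Data (μ : Measure X) (pos : P → X) (col : P → Rc) (W : ι → P → ℝ) (𝓕 : Filter ι)
    (C : ℝ) : Prop where
  C_nonneg : 0 ≤ C
  pos_smul : ∀ (d : Δ) (p : P), pos (d • p) = d • pos p
  col_smul : ∀ (d : Δ) (p : P), col (d • p) = d • col p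
  W_nonneg : ∀ i p, 0 ≤ W i p
  W_smul : ∀ i (d : Δ) (p : P), W i (d • p) = W i p
  /-- local finiteness of the weights -/
  locfin : ∀ i (K : Set X), IsCompact K → Summable fun p ↦ W i p * K.indicator 1 (pos p)
  /-- asymptotic upper bound by `C μ` -/
  upper : ∀ κ : C_c(X, ℝ), (∀ x, 0 ≤ κ x) → ∀ ε > 0, ∀ᶠ i in 𝓕,
    ∑' p, W i p * κ (pos p) ≤ C * ∫ x, κ x ∂μ + ε

/-- The absolute value of a compactly supported function. -/
def absC (κ : C_c(X, ℝ)) : C_c(X, ℝ) :=
  ⟨⟨fun x ↦ |κ x|, by fun_prop⟩, by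
    refine κ.hasCompactSupport.mono' ?_
    intro x hx
    refine subset_tsupport _ ?_
    intro h
    simp only [Function.mem_support] at hx
    exact hx (by simp [show κ x = 0 from h])⟩

@[simp] theorem absC_apply (κ : C_c(X, ℝ)) (x : X) : absC κ x = |κ x| := rfl

section
variable {μ : Measure X} {pos : P → X} {col : P → Rc} {W : ι → P → ℝ} {𝓕 : Filter ι} {C : ℝ}

theorem exists_bound_cc (κ : C_c(X, ℝ)) : ∃ M : ℝ, 0 ≤ M ∧ ∀ x, |κ x| ≤ M *
    (tsupport κ).indicator 1 x := by
  obtain ⟨M, hM⟩ := κ.hasCompactSupport.isCompact.exists_bound_of_continuousOn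
    (f := κ) κ.continuous.continuousOn
  refine ⟨max M 0, le_max_right _ _, fun x ↦ ?_⟩
  by_cases hx : x ∈ tsupport κ
  · simpa [hx] using (Or.inl (by simpa using hM x hx) : |κ x| ≤ M ∨ |κ x| ≤ 0)
  · simp [image_eq_zero_of_notMem_tsupport hx, hx]

theorem Data.summable (D : Data Δ μ pos col W 𝓕 C) (i : ι) (κ : C_c(X, ℝ)) :
    Summable fun p ↦ W i p * κ (pos p) := by
  obtain ⟨M, hM0, hM⟩ := exists_bound_cc κ
  refine Summable.of_norm_bounded ((D.locfin i _ κ.hasCompactSupport).mul_left M) fun p ↦ ?_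
  rw [Real.norm_eq_abs, abs_mul, abs_of_nonneg (D.W_nonneg i p)]
  calc W i p * |κ (pos p)| ≤ W i p * (M * (tsupport κ).indicator 1 (pos p)) :=
        mul_le_mul_of_nonneg_left (hM _) (D.W_nonneg i p)
    _ = _ := by ring

theorem Data.summable_col (D : Data Δ μ pos col W 𝓕 C) (i : ι) (r : Rc) (κ : C_c(X, ℝ)) :
    Summable fun p ↦ W i p * (if col p = r then κ (pos p) else 0) := by
  refine Summable.of_norm_bounded (D.summable i (absC κ)) fun p ↦ ?_
  rw [Real.norm_eq_abs, abs_mul, abs_of_nonneg (D.W_nonneg i p)]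
  refine mul_le_mul_of_nonneg_left ?_ (D.W_nonneg i p)
  split_ifs <;> simp

theorem Data.abs_csum_le (D : Data Δ μ pos col W 𝓕 C) (i : ι) (r : Rc) (κ : C_c(X, ℝ)) :
    |csum pos col (W i) r κ| ≤ ∑' p, W i p * absC κ (pos p) := by
  unfold csum
  refine (norm_tsum_le_tsum_norm (D.summable_col i r κ).norm).trans ?_
  refine Summable.tsum_le_tsum (fun p ↦ ?_) (D.summable_col i r κ).norm (D.summable i _)
  rw [Real.norm_eq_abs, abs_mul, abs_of_nonneg (D.W_nonneg i p)]
  refine mul_le_mul_of_nonneg_left ?_ (D.W_nonneg i p)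
  split_ifs <;> simp

theorem Data.csum_add (D : Data Δ μ pos col W 𝓕 C) (i : ι) (r : Rc) (κ κ' : C_c(X, ℝ)) :
    csum pos col (W i) r (κ + κ' : C_c(X, ℝ)) =
      csum pos col (W i) r κ + csum pos col (W i) r κ' := by
  unfold csum
  rw [← (D.summable_col i r κ).tsum_add (D.summable_col i r κ')]
  refine tsum_congr fun p ↦ ?_
  split_ifs <;> simp [mul_add]

theorem csum_smul (W : P → ℝ) (r : Rc) (c : ℝ) (κ : C_c(X, ℝ)) :
    csum pos col W r (c • κ : C_c(X, ℝ)) = c * csum pos col W r κ := by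
  unfold csum
  rw [← tsum_mul_left]
  refine tsum_congr fun p ↦ ?_
  split_ifs <;> simp [mul_left_comm]

theorem Data.csum_mono (D : Data Δ μ pos col W 𝓕 C) (i : ι) (r : Rc) {κ κ' : C_c(X, ℝ)}
    (h : κ ≤ κ') : csum pos col (W i) r κ ≤ csum pos col (W i) r κ' := by
  unfold csum
  refine Summable.tsum_le_tsum (fun p ↦ ?_) (D.summable_col i r κ) (D.summable_col i r κ')
  refine mul_le_mul_of_nonneg_left ?_ (D.W_nonneg i p)
  split_ifs
  · exact h (pos p)
  · exact le_rfl

theorem Data.csum_le (D : Data Δ μ pos col W 𝓕 C) (i : ι) (r : Rc) {κ : C_c(X, ℝ)}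
    (h : ∀ x, 0 ≤ κ x) : csum pos col (W i) r κ ≤ ∑' p, W i p * κ (pos p) := by
  unfold csum
  refine Summable.tsum_le_tsum (fun p ↦ ?_) (D.summable_col i r κ) (D.summable i κ)
  refine mul_le_mul_of_nonneg_left ?_ (D.W_nonneg i p)
  split_ifs
  · exact le_rfl
  · exact h _

/-- Composition of a test function with `d`. -/
def compC (d : Δ) (κ : C_c(X, ℝ)) : C_c(X, ℝ) :=
  ⟨⟨fun x ↦ κ (d • x), by fun_prop⟩,
    κ.hasCompactSupport.comp_homeomorph (Homeomorph.smul d)⟩

@[simp] theorem compC_apply (d : Δ) (κ : C_c(X, ℝ)) (x : X) : compC d κ x = κ (d • x) := rfl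

theorem Data.csum_comp (D : Data Δ μ pos col W 𝓕 C) (i : ι) (r : Rc) (d : Δ) (κ : C_c(X, ℝ)) :
    csum pos col (W i) (d • r) κ = csum pos col (W i) r (compC d κ) := by
  unfold csum
  rw [← (MulAction.toPerm d : Equiv.Perm P).tsum_eq]
  refine tsum_congr fun p ↦ ?_
  simp [D.W_smul, D.col_smul, D.pos_smul]

/-- Limits along ultrafilters exist. -/
theorem Data.exists_lim (D : Data Δ μ pos col W 𝓕 C) (U : Ultrafilter ι) (hU : ↑U ≤ 𝓕)
    (r : Rc) (κ : C_c(X, ℝ)) :
    ∃ L : ℝ, Tendsto (fun i ↦ csum pos col (W i) r κ) U (𝓝 L) := by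
  set M : ℝ := C * ∫ x, absC κ x ∂μ + 1
  have h : ∀ᶠ i in (U : Filter ι), csum pos col (W i) r κ ∈ Icc (-M) M := by
    filter_upwards [hU (D.upper (absC κ) (fun x ↦ abs_nonneg _) 1 one_pos)] with i hi
    have := (D.abs_csum_le i r κ).trans hi
    exact abs_le.1 this
  have hc : IsCompact (Icc (-M) M) := isCompact_Icc
  obtain ⟨L, -, hL⟩ := hc.ultrafilter_le_nhds (U.map fun i ↦ csum pos col (W i) r κ)
    (by rw [Ultrafilter.coe_map, le_principal_iff]; exact Filter.mem_map.2 h)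
  exact ⟨L, hL⟩

/-- The limit functional. -/
noncomputable def lim (D : Data Δ μ pos col W 𝓕 C) (U : Ultrafilter ι) (hU : ↑U ≤ 𝓕) (r : Rc) :
    C_c(X, ℝ) →ₚ[ℝ] ℝ where
  toFun κ := (D.exists_lim U hU r κ).choose
  map_add' κ κ' := by
    refine tendsto_nhds_unique (D.exists_lim U hU r (κ + κ')).choose_spec ?_
    refine (((D.exists_lim U hU r κ).choose_spec.add
      (D.exists_lim U hU r κ').choose_spec)).congr fun i ↦ ?_
    exact (D.csum_add i r κ κ').symm
  map_smul' c κ := by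
    refine tendsto_nhds_unique (D.exists_lim U hU r (c • κ)).choose_spec ?_
    refine ((D.exists_lim U hU r κ).choose_spec.const_mul c).congr fun i ↦ ?_
    exact (csum_smul _ r c κ).symm
  monotone' κ κ' h := by
    refine le_of_tendsto_of_tendsto' (D.exists_lim U hU r κ).choose_spec
      (D.exists_lim U hU r κ').choose_spec fun i ↦ ?_
    exact D.csum_mono i r h

theorem tendsto_lim (D : Data Δ μ pos col W 𝓕 C) (U : Ultrafilter ι) (hU : ↑U ≤ 𝓕) (r : Rc)
    (κ : C_c(X, ℝ)) : Tendsto (fun i ↦ csum pos col (W i) r κ) U (𝓝 (lim D U hU r κ)) :=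
  (D.exists_lim U hU r κ).choose_spec

theorem lim_le (D : Data Δ μ pos col W 𝓕 C) (U : Ultrafilter ι) (hU : ↑U ≤ 𝓕) (r : Rc)
    (κ : C_c(X, ℝ)) (h : ∀ x, 0 ≤ κ x) : lim D U hU r κ ≤ C * ∫ x, κ x ∂μ := by
  refine le_of_forall_pos_le_add fun ε hε ↦ ?_
  refine le_of_tendsto (tendsto_lim D U hU r κ) ?_
  filter_upwards [hU (D.upper κ h ε hε)] with i hi
  exact (D.csum_le i r h).trans hi

theorem lim_comp (D : Data Δ μ pos col W 𝓕 C) (U : Ultrafilter ι) (hU : ↑U ≤ 𝓕) (r : Rc)
    (d : Δ) (κ : C_c(X, ℝ)) : lim D U hU (d • r) κ = lim D U hU r (compC d κ) := by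
  refine tendsto_nhds_unique (tendsto_lim D U hU (d • r) κ) ?_
  refine (tendsto_lim D U hU r (compC d κ)).congr fun i ↦ ?_
  exact (D.csum_comp i r d κ).symm

/-- The limit measure of the points of colour `r`. -/
noncomputable def nu (D : Data Δ μ pos col W 𝓕 C) (U : Ultrafilter ι) (hU : ↑U ≤ 𝓕) (r : Rc) :
    Measure X := RealRMK.rieszMeasure (lim D U hU r)

instance (D : Data Δ μ pos col W 𝓕 C) (U : Ultrafilter ι) (hU : ↑U ≤ 𝓕) (r : Rc) :
    (nu D U hU r).Regular := by unfold nu; infer_instance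

theorem integral_nu (D : Data Δ μ pos col W 𝓕 C) (U : Ultrafilter ι) (hU : ↑U ≤ 𝓕) (r : Rc)
    (κ : C_c(X, ℝ)) : ∫ x, κ x ∂(nu D U hU r) = lim D U hU r κ :=
  RealRMK.integral_rieszMeasure _ κ

theorem nu_le [μ.Regular] (D : Data Δ μ pos col W 𝓕 C) (U : Ultrafilter ι) (hU : ↑U ≤ 𝓕)
    (r : Rc) : nu D U hU r ≤ C.toNNReal • μ := by
  haveI : (C.toNNReal • μ).Regular := inferInstance
  refine measure_le_of_integral_le fun κ hκ ↦ ?_
  rw [integral_nu, integral_smul_nnreal_measure, NNReal.smul_def, smul_eq_mul,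
    Real.coe_toNNReal _ D.C_nonneg]
  exact lim_le D U hU r κ hκ

theorem map_nu (D : Data Δ μ pos col W 𝓕 C) (U : Ultrafilter ι) (hU : ↑U ≤ 𝓕) (r : Rc) (d : Δ) :
    (nu D U hU r).map (fun x ↦ d • x) = nu D U hU (d • r) := by
  haveI : ((nu D U hU r).map (fun x ↦ d • x)).Regular :=
    Measure.Regular.map (Homeomorph.smul d)
  refine Measure.ext_of_integral_eq_on_compactlySupported fun κ ↦ ?_
  have h : ∫ x, κ x ∂((nu D U hU r).map (fun x ↦ d • x)) =
      ∫ x, κ (d • x) ∂(nu D U hU r) :=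
    (Homeomorph.smul d).toMeasurableEquiv.measurableEmbedding.integral_map _
  rw [h, integral_nu, lim_comp]
  exact integral_nu D U hU r (compC d κ)


/-! ### Densities -/

variable [SecondCountableTopology X] [μ.Regular] [SMulInvariantMeasure Δ X μ]

theorem nu_ac (D : Data Δ μ pos col W 𝓕 C) (U : Ultrafilter ι) (hU : ↑U ≤ 𝓕) (r : Rc) :
    nu D U hU r ≪ μ := by
  refine Measure.AbsolutelyContinuous.mk fun s _ hs ↦ ?_
  refine le_antisymm ((nu_le D U hU r s).trans ?_) bot_le
  simp [hs]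

theorem withDensity_rn (D : Data Δ μ pos col W 𝓕 C) (U : Ultrafilter ι) (hU : ↑U ≤ 𝓕) (r : Rc) :
    μ.withDensity ((nu D U hU r).rnDeriv μ) = nu D U hU r :=
  Measure.withDensity_rnDeriv_eq _ _ (nu_ac D U hU r)

theorem rn_le (D : Data Δ μ pos col W 𝓕 C) (U : Ultrafilter ι) (hU : ↑U ≤ 𝓕) (r : Rc) :
    (nu D U hU r).rnDeriv μ ≤ᵐ[μ] fun _ ↦ (C.toNNReal : ℝ≥0∞) := by
  refine ae_le_of_forall_setLIntegral_le_of_sigmaFinite (Measure.measurable_rnDeriv _ _)
    fun s hs _ ↦ ?_
  rw [← withDensity_apply _ hs, withDensity_rn, setLIntegral_const]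
  exact nu_le D U hU r s

theorem rn_comp (D : Data Δ μ pos col W 𝓕 C) (U : Ultrafilter ι) (hU : ↑U ≤ 𝓕) (r : Rc) (d : Δ) :
    (fun x ↦ (nu D U hU (d • r)).rnDeriv μ (d • x)) =ᵐ[μ] (nu D U hU r).rnDeriv μ := by
  have hm : Measurable fun x : X ↦ d • x := measurable_const_smul d
  have hf : Measurable fun x ↦ (nu D U hU (d • r)).rnDeriv μ (d • x) :=
    (Measure.measurable_rnDeriv _ _).comp hm
  refine Measure.eq_rnDeriv (s := 0) hf Measure.MutuallySingular.zero_left ?_
  rw [zero_add]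
  refine Measure.ext fun s hs ↦ ?_
  rw [withDensity_apply _ hs]
  set t : Set X := (fun x ↦ d⁻¹ • x) ⁻¹' s with ht
  have hts : MeasurableSet t := measurable_const_smul d⁻¹ hs
  have hst : (fun x : X ↦ d • x) ⁻¹' t = s := by ext x; simp [ht]
  have h1 := (measurePreserving_smul d μ).setLIntegral_comp_preimage hts
    (Measure.measurable_rnDeriv (nu D U hU (d • r)) μ)
  rw [hst] at h1
  rw [h1, ← withDensity_apply _ hts, withDensity_rn, ← map_nu D U hU r d,
    Measure.map_apply hm hts, hst]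

/-- The main theorem, for limits along an ultrafilter. -/
theorem nu_smul (D : Data Δ μ pos col W 𝓕 C) (U : Ultrafilter ι) (hU : ↑U ≤ 𝓕) (r : Rc) (d : Δ)
    (hErg : ∀ E : X → ℝ, Measurable E → (∃ M, ∀ x, |E x| ≤ M) →
      (∀ d' : Δ, (∀ s : Rc, d' • s = s) → (fun x ↦ E (d' • x)) =ᵐ[μ] E) →
      (fun x ↦ E (d • x)) =ᵐ[μ] E) :
    nu D U hU (d • r) = nu D U hU r := by
  set h : Rc → X → ℝ≥0∞ := fun r ↦ (nu D U hU r).rnDeriv μ with hh
  have hmeas : ∀ r, Measurable (h r) := fun r ↦ Measure.measurable_rnDeriv _ _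
  set E : X → ℝ := fun x ↦ min (h r x).toReal C with hE
  have hEmeas : Measurable E := (hmeas r).ennreal_toReal.min measurable_const
  have hEb : ∃ M, ∀ x, |E x| ≤ M := by
    refine ⟨C, fun x ↦ ?_⟩
    rw [abs_of_nonneg (le_min ENNReal.toReal_nonneg D.C_nonneg)]
    exact min_le_right _ _
  have hle : ∀ᵐ x ∂μ, h r x ≤ C.toNNReal := rn_le D U hU r
  have hqmp : ∀ e : Δ, Measure.QuasiMeasurePreserving (fun x : X ↦ e • x) μ μ := fun e ↦
    (measurePreserving_smul e μ).quasiMeasurePreserving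
  have hEh : ∀ᵐ x ∂μ, ENNReal.ofReal (E x) = h r x := by
    filter_upwards [hle] with x hx
    have h1 : (h r x).toReal ≤ C := by
      have := ENNReal.toReal_mono (by finiteness) hx
      simpa [D.C_nonneg] using this
    rw [hE]
    simp only [min_eq_left h1]
    exact ENNReal.ofReal_toReal (ne_top_of_le_ne_top (by finiteness) hx)
  have key : (fun x ↦ E (d • x)) =ᵐ[μ] E := by
    refine hErg E hEmeas hEb fun d' hd' ↦ ?_
    have h2 := rn_comp D U hU r d'
    rw [hd' r] at h2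
    filter_upwards [h2] with x hx
    simp only [hE, hh]
    rw [hx]
  -- now compare the densities of the two colours
  have h3 : (fun x ↦ h r (d • x)) =ᵐ[μ] h r := by
    filter_upwards [key, hEh, (hqmp d).ae hEh] with x h4 h5 h6
    rw [← h5, ← h6, h4]
  have h7 : (fun x ↦ h (d • r) (d • x)) =ᵐ[μ] h r := rn_comp D U hU r d
  have h8 : (fun x ↦ h (d • r) (d • x)) =ᵐ[μ] fun x ↦ h r (d • x) := h7.trans h3.symm
  have h9 : h (d • r) =ᵐ[μ] h r := by
    have := (hqmp d⁻¹).ae h8
    filter_upwards [this] with x hx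
    simpa using hx
  rw [← withDensity_rn D U hU (d • r), ← withDensity_rn D U hU r]
  exact withDensity_congr_ae h9

/-- **Equidistribution of colours.**  If every bounded measurable function on `X` which is
invariant under the kernel of `Δ → Perm Rc` is invariant under `d`, then the colours `r` and
`d • r` have asymptotically the same weights. -/
theorem tendsto_csum_sub (D : Data Δ μ pos col W 𝓕 C) (r : Rc) (d : Δ)
    (hErg : ∀ E : X → ℝ, Measurable E → (∃ M, ∀ x, |E x| ≤ M) →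
      (∀ d' : Δ, (∀ s : Rc, d' • s = s) → (fun x ↦ E (d' • x)) =ᵐ[μ] E) →
      (fun x ↦ E (d • x)) =ᵐ[μ] E) (κ : C_c(X, ℝ)) :
    Tendsto (fun i ↦ csum pos col (W i) (d • r) κ - csum pos col (W i) r κ) 𝓕 (𝓝 0) := by
  rw [tendsto_iff_ultrafilter]
  intro U hU
  have h := (tendsto_lim D U hU (d • r) κ).sub (tendsto_lim D U hU r κ)
  rwa [← integral_nu, ← integral_nu, nu_smul D U hU r d hErg, sub_self] at h

end

end Vale.Agent.P011.H380.Theta
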