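import Vale.Agent.P011.H380.Up
import Vale.Agent.P011.H380.SymBC
import Vale.Agent.P011.H380.UnitsTop
import Vale.Agent.P011.H699.Den

/-!
# The asymptotic upper bound for the unitary group of a division algebra

`A` a division algebra over `k` with involution of the second kind, `E` its base change to the
topological `k`-algebra `R`, `Lam` an order of `A` over `O ⊆ k`, where `O` is discrete and cocompact
in `R`.  The points are the elements of `unitary A`, the denominator of `u` is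
`H699.den Lam u = [Lam : {x ∈ Lam : u x ∈ Lam}]`.
-/

set_option linter.unusedSectionVars false
set_option linter.style.haveILetI false

open MeasureTheory Filter Topology Set Module
open scoped ENNReal NNReal Pointwise CompactlySupported

namespace Vale.Agent.P011.H380.UpBC

open Vale.Agent.P011.H544 Vale.Agent.P011.H83 Vale.Agent.P011.H380.Theta
  Vale.Agent.P011.H380.SymBC Vale.Agent.P011.H380.UnitsTop

variable {k R A E ι : Type*} [Field k] [CommRing R] [TopologicalSpace R] [IsTopologicalRing R]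
  [Algebra k R] [DivisionRing A] [StarRing A] [Algebra k A] [StarLin k A] [Ring E] [StarRing E]
  [TopologicalSpace E] [IsTopologicalRing E] [Algebra R E] [Fintype ι] [DecidableEq ι]
  (B : BC k R A E ι)

/-- The map on unitary groups. -/
noncomputable def jU : unitary A →* unitary E where
  toFun u := ⟨B.j u, Unitary.mem_iff.2 ⟨by
      rw [← B.j_star, ← map_mul, Unitary.star_mul_self_of_mem u.2, map_one], by
      rw [← B.j_star, ← map_mul, Unitary.mul_star_self_of_mem u.2, map_one]⟩⟩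
  map_one' := Subtype.ext (map_one B.j)
  map_mul' u v := Subtype.ext (map_mul B.j _ _)

theorem coe_jU (u : unitary A) : (jU B u : E) = B.j u := rfl

theorem jU_injective [Nontrivial R] : Function.Injective (jU B) := by
  intro u v h
  exact Subtype.ext (B.j_inj (congrArg Subtype.val h))

/-- An order is a lattice in `E`. -/
theorem lring [Nontrivial R] {O : Subring k}
    (hOd : ∀ K : Set R, IsCompact K → {c : k | c ∈ O ∧ algebraMap k R c ∈ K}.Finite)
    (hOc : ∃ K : Set R, IsCompact K ∧ ∀ r : R, ∃ c ∈ O, r - algebraMap k R c ∈ K)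
    {Lam : Subring A} [Countable Lam] (H : IsOrd B.a O Lam) : H699.LRing (Lam.map B.j) := by
  have h := B.lat hOd hOc H
  refine ⟨?_, fun K hK ↦ ?_, h.coc⟩
  · have : Function.Surjective (fun x : Lam ↦ (⟨B.j x, ⟨x, x.2, rfl⟩⟩ : Lam.map B.j)) := by
      rintro ⟨_, x, hx, rfl⟩
      exact ⟨⟨x, hx⟩, rfl⟩
    exact this.countable
  · rw [inter_comm]
    exact h.disc K hK

include B in
/-- Every element of `A` has a denominator in the order. -/
theorem exists_mul_mem {O : Subring k} (hO : ∀ x : k, ∃ d ∈ O, d ≠ 0 ∧ d * x ∈ O)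
    {Lam : Subring A} (H : IsOrd B.a O Lam) (s : A) : ∃ h ∈ Lam, h ≠ 0 ∧ s * h ∈ Lam := by
  classical
  have hfin : ∀ (κ : Type _) (s : Finset κ) (f : κ → k), ∃ d ∈ O, d ≠ 0 ∧ ∀ i ∈ s, d * f i ∈ O := by
    intro κ s f
    induction s using Finset.induction_on with
    | empty => exact ⟨1, O.one_mem, one_ne_zero, by simp⟩
    | insert i s hi ih =>
      obtain ⟨d, hd, hd0, hd1⟩ := ih
      obtain ⟨e, he, he0, he1⟩ := hO (f i)
      refine ⟨d * e, O.mul_mem hd he, mul_ne_zero hd0 he0, fun j hj => ?_⟩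
      rcases Finset.mem_insert.1 hj with rfl | hj
      · rw [mul_assoc]; exact O.mul_mem hd he1
      · rw [mul_comm d e, mul_assoc]; exact O.mul_mem he (hd1 j hj)
  obtain ⟨d, hd, hlo⟩ := H.lo
  obtain ⟨c1, hc1, hc10, hc11⟩ := hfin ι Finset.univ (fun i ↦ B.a.repr 1 i)
  obtain ⟨c2, hc2, hc20, hc21⟩ := hfin ι Finset.univ (fun i ↦ B.a.repr s i)
  have key : ∀ x : A, (∀ i, (c1 * c2) * B.a.repr x i ∈ O) → (d * (c1 * c2)) • x ∈ Lam := by
    intro x hx
    have h1 := hlo (fun i ↦ (c1 * c2) * B.a.repr x i) hx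
    have h2 : (d * (c1 * c2)) • x = ∑ i, (d * (c1 * c2 * B.a.repr x i)) • B.a i := by
      conv_lhs => rw [← B.a.sum_repr x]
      rw [Finset.smul_sum]
      refine Finset.sum_congr rfl fun i _ ↦ ?_
      rw [smul_smul, mul_assoc]
    rw [h2]
    exact h1
  refine ⟨(d * (c1 * c2)) • (1 : A), key 1 fun i ↦ ?_, ?_, ?_⟩
  · rw [mul_comm c1, mul_assoc]
    exact O.mul_mem hc2 (hc11 i (Finset.mem_univ _))
  · exact smul_ne_zero (mul_ne_zero hd (mul_ne_zero hc10 hc20)) one_ne_zero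
  · rw [mul_smul_comm, mul_one]
    refine key s fun i ↦ ?_
    rw [mul_assoc]
    exact O.mul_mem hc1 (hc21 i (Finset.mem_univ _))

section

variable [Nontrivial R] {O : Subring k}
  (hOd : ∀ K : Set R, IsCompact K → {c : k | c ∈ O ∧ algebraMap k R c ∈ K}.Finite)
  (hOc : ∃ K : Set R, IsCompact K ∧ ∀ r : R, ∃ c ∈ O, r - algebraMap k R c ∈ K)
  (hO : ∀ x : k, ∃ d ∈ O, d ≠ 0 ∧ d * x ∈ O)
  {Lam : Subring A} [Countable Lam] (H : IsOrd B.a O Lam)

include B hOd hOc hO H

theorem den_ne_zero (s : A) : H699.den Lam s ≠ 0 := by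
  obtain ⟨h, hh, h0, hs⟩ := exists_mul_mem B hO H s
  rw [← H699.den_map B.j B.j_inj]
  refine H699.den_ne_zero (lring B hOd hOc H) (h := B.j h) ⟨h, hh, rfl⟩ ?_ ?_
  · exact (IsUnit.mk0 h h0).map B.j
  · rw [← map_mul]
    exact ⟨_, hs, rfl⟩

theorem one_le_den (s : A) : (1 : ℝ) ≤ H699.den Lam s := by
  exact_mod_cast H699.den_one_le (den_ne_zero B hOd hOc hO H s)

end

section up

variable [Nontrivial R] [LocallyCompactSpace R] [T2Space R] [SecondCountableTopology R]

include B in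
theorem secondCountable : SecondCountableTopology E :=
  B.φ.toHomeomorph.secondCountableTopology

/-- **The asymptotic upper bound**, cells. -/
theorem cells_bc (hR : DetOne R) (hRu : GoodUnits R) (r : Rˣ)
    (hr : Tendsto (fun n : ℕ ↦ (r : R) ^ n) atTop (𝓝 0)) {O : Subring k}
    (hOd : ∀ K : Set R, IsCompact K → {c : k | c ∈ O ∧ algebraMap k R c ∈ K}.Finite)
    (hOc : ∃ K : Set R, IsCompact K ∧ ∀ r : R, ∃ c ∈ O, r - algebraMap k R c ∈ K)
    (hO : ∀ x : k, ∃ d ∈ O, d ≠ 0 ∧ d * x ∈ O)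
    {Lam : Subring A} [Countable Lam] (H : IsOrd B.a O Lam)
    {w0 : A} (hw : ∀ x, w0 * x = x * w0) (hne : w0 ≠ star w0)
    [MeasurableSpace (unitary E)] [BorelSpace (unitary E)]
    (μ : Measure (unitary E)) [μ.IsHaarMeasure] :
    ∃ (C : ℝ → Set (unitary E)) (c : ℝ), 0 < c ∧ (∀ Q, MeasurableSet (C Q)) ∧
      (∀ V ∈ 𝓝 (1 : unitary E), ∀ᶠ Q in atTop, C Q ⊆ V) ∧
      (∀ᶠ Q in atTop, c / Q ≤ μ.real (C Q)) ∧
      (∀ᶠ Q in atTop, ∀ p p' : unitary A, (H699.den Lam (p : A) : ℝ) ≤ Q →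
        (H699.den Lam (p' : A) : ℝ) ≤ Q → p ≠ p' →
        ∀ b ∈ C Q, ∀ b' ∈ C Q, jU B p * b ≠ jU B p' * b') := by
  classical
  have := B.continuousStar
  have := B.t2
  have := B.locallyCompact
  have := locallyCompact_unitary E
  have := secondCountable B
  have := SymBC.continuousSMul B
  have := SymBC.finite B
  have : Nontrivial (Fin (finrank k (symS k A)) → R) := nontrivial_L
  borelize E
  borelize R
  let S := symData hw hne B
  let lam : Measure (Fin (finrank k (symS k A)) → R) := Measure.addHaar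
  have hhaar : (S.haarE lam).IsAddHaarMeasure :=
    Measure.isAddHaarMeasure_map (lam.prod lam)
      (AddMonoidHom.mk' S.eqv S.eqv_add :
        (Fin (finrank k (symS k A)) → R) × (Fin (finrank k (symS k A)) → R) →+ E)
      S.eqv.continuous S.eqv.surjective S.eqv.isClosedEmbedding.tendsto_cocompact
  have hmetr : TopologicalSpace.MetrizableSpace E := TopologicalSpace.metrizableSpace_of_t3_secondCountable E
  have hreg : (S.haarE lam).Regular := inferInstance
  -- a unitary element different from one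
  obtain ⟨u0, hu0⟩ : ∃ u0 : unitary A, u0 ≠ 1 := by
    have hs0 : star w0 ≠ 0 := by
      intro h
      have h1 : w0 = 0 := by rw [← star_star w0, h, star_zero]
      rw [h1, star_zero] at hne
      exact hne rfl
    have hw00 : w0 ≠ 0 := fun h ↦ hs0 (by rw [h, star_zero])
    refine ⟨⟨w0 * (star w0)⁻¹, Unitary.mem_iff.2 ⟨?_, ?_⟩⟩, fun h ↦ hne ?_⟩
    · rw [star_mul, star_inv₀, star_star]
      have h1 : star w0 * w0 = w0 * star w0 := (hw (star w0)).symm
      calc w0⁻¹ * star w0 * (w0 * (star w0)⁻¹) = w0⁻¹ * (star w0 * w0) * (star w0)⁻¹ := by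
            simp only [mul_assoc]
        _ = 1 := by
            rw [h1, ← mul_assoc, inv_mul_cancel₀ hw00, one_mul, mul_inv_cancel₀ hs0]
    · rw [star_mul, star_inv₀, star_star]
      have h1 : (star w0)⁻¹ * w0⁻¹ = w0⁻¹ * (star w0)⁻¹ := by
        rw [← mul_inv_rev, ← mul_inv_rev, hw]
      calc w0 * (star w0)⁻¹ * (w0⁻¹ * star w0) = w0 * ((star w0)⁻¹ * w0⁻¹) * star w0 := by
            simp only [mul_assoc]
        _ = 1 := by
            rw [h1, ← mul_assoc, mul_inv_cancel₀ hw00, one_mul, inv_mul_cancel₀ hs0]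
    · have h1 : w0 * (star w0)⁻¹ = 1 := congrArg Subtype.val h
      exact (mul_inv_eq_one₀ hs0).1 h1
  have hE : GoodUnits E := GoodUnits.algebra B.φ hRu
  obtain ⟨C1, K1, hC1, hC1μ, hK1, hJ⟩ := exists_chart μ (jU B u0) (by
    rw [coe_jU, ← map_one B.j, ← map_sub]
    refine (IsUnit.mk0 _ (sub_ne_zero.2 fun h ↦ hu0 (Subtype.ext h))).map B.j) hE.isOpen hE.inv
  obtain ⟨W, hW, hWn⟩ := exists_compact_mem_nhds (0 : E)
  have hWμ : S.haarE lam W ≠ 0 := (Measure.measure_pos_of_mem_nhds _ hWn).ne'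
  have hLR := lring B hOd hOc H
  refine exists_cells_of_unit S lam μ hC1 hC1μ (fun x ↦ Ring.inverse (x - 1)) hK1 (fun g hg ↦ (hJ g hg).1)
    (fun g hg ↦ (hJ g hg).2.1) (fun g hg ↦ (hJ g hg).2.2) hW hWμ (jU B)
    (fun p ↦ (H699.den Lam (p : A) : ℝ)) (fun p ↦ Nat.cast_nonneg _) ?_ r hr
  intro p p' hpp
  -- spacing
  have hmod : ∀ W : Set E, S.haarE lam ((fun z ↦ B.j (p : A) * z) '' W) = S.haarE lam W := by
    intro W
    have h1 : (fun z ↦ B.j (p : A) * z) '' W = (fun z ↦ star (B.j (p : A)) * z) ⁻¹' W := by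
      ext y
      rw [mem_preimage]
      constructor
      · rintro ⟨z, hz, rfl⟩
        have h2 : star (B.j (p : A)) * (B.j (p : A) * z) = z := by
          rw [← mul_assoc, ← B.j_star, ← map_mul, Unitary.star_mul_self_of_mem p.2, map_one,
            one_mul]
        rw [h2]
        exact hz
      · intro h
        refine ⟨_, h, ?_⟩
        change B.j (p : A) * (star (B.j (p : A)) * y) = y
        rw [← mul_assoc, ← B.j_star, ← map_mul, Unitary.mul_star_self_of_mem p.2, map_one,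
          one_mul]
    rw [h1]
    refine B.haar_unitary hR (S.haarE lam) _ ?_ W
    rw [star_star, ← B.j_star, ← map_mul, Unitary.mul_star_self_of_mem p.2, map_one]
  have hd : ∀ q : unitary A, H699.den (Lam.map B.j) (B.j (q : A)) ≠ 0 := by
    intro q
    rw [H699.den_map B.j B.j_inj]
    exact den_ne_zero B hOd hOc hO H _
  let u : Eˣ := Unitary.toUnits (jU B p)
  have h1 := H699.spacing_unitary (μ := S.haarE lam) hLR (hd p) (hd p') u rfl hmod
    (by
      rw [← map_sub]
      exact (IsUnit.mk0 _ (sub_ne_zero.2 fun h ↦ hpp (Subtype.ext h).symm)).map B.j) W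
  rw [H699.den_map B.j B.j_inj, H699.den_map B.j B.j_inj] at h1
  rw [ENNReal.ofReal_mul (Nat.cast_nonneg _), ENNReal.ofReal_natCast, ENNReal.ofReal_natCast]
  exact h1

/-- **(UP): the asymptotic upper bound for the measures with weights `(x - 1) den ^ (-x)`**, for
every set of points. -/
theorem up_bc (hR : DetOne R) (hRu : GoodUnits R) (r : Rˣ)
    (hr : Tendsto (fun n : ℕ ↦ (r : R) ^ n) atTop (𝓝 0)) {O : Subring k}
    (hOd : ∀ K : Set R, IsCompact K → {c : k | c ∈ O ∧ algebraMap k R c ∈ K}.Finite)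
    (hOc : ∃ K : Set R, IsCompact K ∧ ∀ r : R, ∃ c ∈ O, r - algebraMap k R c ∈ K)
    (hO : ∀ x : k, ∃ d ∈ O, d ≠ 0 ∧ d * x ∈ O)
    {Lam : Subring A} [Countable Lam] (H : IsOrd B.a O Lam)
    {w0 : A} (hw : ∀ x, w0 * x = x * w0) (hne : w0 ≠ star w0)
    [MeasurableSpace (unitary E)] [BorelSpace (unitary E)]
    (μ : Measure (unitary E)) [μ.IsHaarMeasure]
    {P : Type*} (u : P → unitary A) (hu : Function.Injective u) :
    ∃ C : ℝ≥0, ∀ φ : C_c(unitary E, ℝ), (∀ g, 0 ≤ φ g) → ∀ ε : ℝ, 0 < ε →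
      ∀ᶠ x : ℝ in 𝓝[>] 1, ∀ s : Set P,
        Integrable φ (smeas (fun p ↦ jU B (u p)) (wt (fun p ↦ (H699.den Lam (u p : A) : ℝ)) x) s) ∧
        ∫ g, φ g ∂(smeas (fun p ↦ jU B (u p)) (wt (fun p ↦ (H699.den Lam (u p : A) : ℝ)) x) s) ≤
          C * ∫ g, φ g ∂μ + ε := by
  have := B.continuousStar
  have := B.t2
  have := B.locallyCompact
  have := locallyCompact_unitary E
  obtain ⟨Cl, c, hc, h1, h2, h3, h4⟩ := cells_bc B hR hRu r hr hOd hOc hO H hw hne μ
  refine ⟨⟨4 * c⁻¹, by positivity⟩, fun φ hφ ε hε ↦ ?_⟩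
  refine up_of_cells (fun p ↦ one_le_den B hOd hOc hO H _) Cl h1 h2 hc h3 ?_ φ hφ hε
  filter_upwards [h4] with Q hQ p p' hp hp' hpp
  exact hQ (u p) (u p') hp hp' fun h ↦ hpp (hu h)

/-- Local finiteness. -/
theorem finite_bc (hR : DetOne R) (hRu : GoodUnits R) (r : Rˣ)
    (hr : Tendsto (fun n : ℕ ↦ (r : R) ^ n) atTop (𝓝 0)) {O : Subring k}
    (hOd : ∀ K : Set R, IsCompact K → {c : k | c ∈ O ∧ algebraMap k R c ∈ K}.Finite)
    (hOc : ∃ K : Set R, IsCompact K ∧ ∀ r : R, ∃ c ∈ O, r - algebraMap k R c ∈ K)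
    (hO : ∀ x : k, ∃ d ∈ O, d ≠ 0 ∧ d * x ∈ O)
    {Lam : Subring A} [Countable Lam] (H : IsOrd B.a O Lam)
    {w0 : A} (hw : ∀ x, w0 * x = x * w0) (hne : w0 ≠ star w0)
    {P : Type*} (u : P → unitary A) (hu : Function.Injective u)
    {K : Set (unitary E)} (hK : IsCompact K) (Q : ℝ) :
    {p | jU B (u p) ∈ K ∧ (H699.den Lam (u p : A) : ℝ) ≤ Q}.Finite := by
  have := B.continuousStar
  have := B.t2
  have := B.locallyCompact
  have := locallyCompact_unitary E
  letI : MeasurableSpace (unitary E) := borel _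
  haveI : BorelSpace (unitary E) := ⟨rfl⟩
  let μ : Measure (unitary E) := Measure.haar
  obtain ⟨Cl, c, hc, h1, h2, h3, h4⟩ := cells_bc B hR hRu r hr hOd hOc hO H hw hne μ
  refine finite_of_sep (μ := μ) (pos := fun p ↦ jU B (u p))
    (den := fun p ↦ (H699.den Lam (u p : A) : ℝ)) Cl h1 h2 hc h3 ?_ hK Q
  filter_upwards [h4] with Q hQ p p' hp hp' hpp
  exact hQ (u p) (u p') hp hp' fun h ↦ hpp (hu h)

end up

section equiv

/-- The denominator is invariant under the unitary group of the order. -/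
theorem den_mul {Lam : Subring A} (hst : ∀ x ∈ Lam, star x ∈ Lam) {γ γ' : unitary A}
    (hγ : (γ : A) ∈ Lam) (hγ' : (γ' : A) ∈ Lam) (p : unitary A) :
    H699.den Lam ((γ * p * γ' : unitary A) : A) = H699.den Lam (p : A) := by
  change H699.den Lam ((γ : A) * (p : A) * (γ' : A)) = _
  exact H699.den_mul_mul hγ (hst _ hγ) (Unitary.star_mul_self_of_mem γ.2) hγ' (hst _ hγ')
    (Unitary.star_mul_self_of_mem γ'.2) (Unitary.mul_star_self_of_mem γ'.2) _

/-- **Equivariance** of the colour measures under left and right translations by the unitary group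
of the order (`γ' = γ⁻¹` : conjugations). -/
theorem map_smeas_mul {Lam : Subring A} (hst : ∀ x ∈ Lam, star x ∈ Lam) {γ γ' : unitary A}
    (hγ : (γ : A) ∈ Lam) (hγ' : (γ' : A) ∈ Lam) [MeasurableSpace (unitary E)]
    [BorelSpace (unitary E)] [ContinuousStar E] {P : Type*} (u : P → unitary A) (e : P ≃ P)
    (he : ∀ p, u (e p) = γ * u p * γ') {s t : Set P} (hst' : ∀ p, p ∈ s ↔ e p ∈ t) (x : ℝ) :
    (smeas (fun p ↦ jU B (u p)) (wt (fun p ↦ (H699.den Lam (u p : A) : ℝ)) x) s).map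
      (fun g ↦ jU B γ * g * jU B γ') =
    smeas (fun p ↦ jU B (u p)) (wt (fun p ↦ (H699.den Lam (u p : A) : ℝ)) x) t := by
  refine map_smeas ?_ e hst' (fun p _ ↦ ?_) (fun p _ ↦ ?_)
  · exact (by fun_prop : Continuous fun g : unitary E ↦ jU B γ * g * jU B γ').measurable
  · rw [wt, wt, he, den_mul hst hγ hγ']
  · rw [he, map_mul, map_mul]

end equiv

end Vale.Agent.P011.H380.UpBC
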